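import Vale.Agent.P092.H944.GeoRaw
import Vale.Agent.P092.H761.RankDefs

/-!
P092 (helper944), rank theorem: block [R1] in the literal form of `H761.RankDefs`.
-/

namespace Vale.Agent.P092.H944

open Matrix

variable {n : ℕ} {Γ : Type} [Group Γ] {m : Γ → Matrix (Fin n) (Fin n) ℝ}

/-- **[R1]** The geometric theorem for a set `J` of gaps outside of which the gaps are bounded. -/
theorem geo' [DecidableEq Γ] (hn : 0 < n) (h : Emb m) {J : Type} [Fintype J] [DecidableEq J]
    (e : J ↪ ℕ) {R0 : ℝ}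
    (h0 : ∀ l, l + 1 < n → (∀ j, e j ≠ l) → ∀ g, gap l (m g) ≤ R0) (θ : Finset J) :
    H761.Geo (fun (j : J) (g : Γ) => gap (e j) (m g)) θ :=
  geo_raw hn h e h0 θ

/-- **[R1]** The geometric theorem, all gaps. -/
theorem geo [DecidableEq Γ] (hn : 0 < n) (h : Emb m) (θ : Finset (Fin (n - 1))) :
    H761.Geo (fun (j : Fin (n - 1)) (g : Γ) => gap (j : ℕ) (m g)) θ :=
  geo_raw hn h ⟨fun j : Fin (n - 1) => (j : ℕ), Fin.val_injective⟩ (R0 := 0)
    (fun l hl h1 => absurd rfl (h1 ⟨l, by omega⟩)) θ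

/-- The gap functions, for any classification `cl` of comparable gaps. -/
theorem gaps' (h : Emb m) {J : Type} (e : J ↪ ℕ) {R0 : ℝ}
    (h0 : ∀ l, l + 1 < n → (∀ j, e j ≠ l) → ∀ g, gap l (m g) ≤ R0) {r : ℕ} (cl : J → Fin r)
    (hcl : ∀ R : ℝ, ∃ R' : ℝ, ∀ i j, cl i = cl j → ∀ g, gap (e i) (m g) ≤ R →
      gap (e j) (m g) ≤ R') :
    H761.Gaps (fun (j : J) (g : Γ) => gap (e j) (m g)) cl where
  quasi s t := ⟨4 * lcs (m s) + 4 * lcs (m t), fun j g => h.gap_quasi s g t _⟩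
  fin R := (h.gap_finite (max R R0)).subset fun g hg l hl => by
    by_cases hj : ∃ j, e j = l
    · obtain ⟨j, rfl⟩ := hj
      exact (hg j).trans (le_max_left _ _)
    · push Not at hj
      exact (h0 l hl hj g).trans (le_max_right _ _)
  comp := hcl

/-- The gap functions with one class for each gap. -/
theorem gaps (h : Emb m) :
    H761.Gaps (fun (j : Fin (n - 1)) (g : Γ) => gap (j : ℕ) (m g)) (id : Fin (n - 1) → _) :=
  gaps' h ⟨fun j : Fin (n - 1) => (j : ℕ), Fin.val_injective⟩ (R0 := 0)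
    (fun l hl h1 => absurd rfl (h1 ⟨l, by omega⟩)) id
    fun R => ⟨R, fun i j hij g hg => by
      have : i = j := hij
      rw [← this]
      exact hg⟩

/-- A homomorphism to `SL_n(ℝ)` with finite balls. -/
theorem emb_of_hom (φ : Γ →* SpecialLinearGroup (Fin n) ℝ)
    (fin : ∀ R : ℝ, {g : Γ | hs (φ g : Matrix (Fin n) (Fin n) ℝ) ≤ R}.Finite) :
    Emb (fun g => (φ g : Matrix (Fin n) (Fin n) ℝ)) where
  mul g h := Or.inl (by
    have : φ (g * h) = φ g * φ h := map_mul φ g h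
    rw [this]
    exact Matrix.SpecialLinearGroup.coe_mul _ _)
  det g := by rw [(φ g).2, one_pow]
  fin := fin

end Vale.Agent.P092.H944
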