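import Vale.Agent.P092.H944.DNwG
import Vale.Agent.P092.H414.Near

/-!
P092 (helper944), one simple real factor: bridge between the letters of the singular values
(`gap`), of the norms `hs k`, `hs k⁻¹` and of the pivots (`H414.Sh`) for `SL_3(ℝ)`.
-/

namespace Vale.Agent.P092.H944

open Matrix

theorem IsSVD.inv {n : ℕ} {k κ κ' : Matrix (Fin n) (Fin n) ℝ} {a : Fin n → ℝ}
    (h : IsSVD k κ a κ') : k⁻¹ = κ'ᵀ * diagonal (fun i => (a i)⁻¹) * κᵀ := by
  have e : k * (κ'ᵀ * diagonal (fun i => (a i)⁻¹) * κᵀ) = 1 := by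
    rw [h.eq]
    calc κ * diagonal a * κ' * (κ'ᵀ * diagonal (fun i => (a i)⁻¹) * κᵀ)
        = κ * (diagonal a * (κ' * κ'ᵀ) * diagonal (fun i => (a i)⁻¹)) * κᵀ := by
          simp only [Matrix.mul_assoc]
      _ = κ * (diagonal a * diagonal (fun i => (a i)⁻¹)) * κᵀ := by rw [h.o2', Matrix.mul_one]
      _ = 1 := by
          rw [diagonal_mul_diagonal, show (fun i => a i * (a i)⁻¹) = fun _ => (1 : ℝ) from
            funext fun i => mul_inv_cancel₀ (h.pos i).ne', diagonal_one, Matrix.mul_one, h.o1']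
  exact inv_eq_right_inv e

theorem IsSVD.hs_eq {n : ℕ} {k κ κ' : Matrix (Fin n) (Fin n) ℝ} {a : Fin n → ℝ}
    (h : IsSVD k κ a κ') : hs k = ∑ i, a i ^ 2 := by
  rw [h.eq, hs_mul_orth _ h.o2', hs_orth_mul _ h.o1]
  unfold hs
  refine Finset.sum_congr rfl fun i _ => ?_
  rw [Finset.sum_eq_single i]
  · rw [diagonal_apply_eq]
  · intro j _ hj
    rw [diagonal_apply_ne _ (Ne.symm hj)]
    simp
  · intro hi
    exact absurd (Finset.mem_univ i) hi

theorem IsSVD.hs_inv {n : ℕ} {k κ κ' : Matrix (Fin n) (Fin n) ℝ} {a : Fin n → ℝ}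
    (h : IsSVD k κ a κ') : hs k⁻¹ = ∑ i, (a i ^ 2)⁻¹ := by
  rw [h.inv, hs_mul_orth _ (by rw [transpose_transpose]; exact h.o1),
    hs_orth_mul _ (by rw [transpose_transpose]; exact h.o2')]
  unfold hs
  refine Finset.sum_congr rfl fun i _ => ?_
  rw [Finset.sum_eq_single i]
  · rw [diagonal_apply_eq, inv_pow]
  · intro j _ hj
    rw [diagonal_apply_ne _ (Ne.symm hj)]
    simp
  · intro hi
    exact absurd (Finset.mem_univ i) hi

theorem hs_of_h553 (m : Matrix (Fin 3) (Fin 3) ℝ) : Vale.Agent.P092.H553.hs m = hs m := rfl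

section three

variable {k : Matrix (Fin 3) (Fin 3) ℝ}

/-- The squares of the singular values of a `3 × 3` matrix of determinant `±1`. -/
theorem three (hk : |k.det| = 1) : ∃ x y z : ℝ, 0 < z ∧ z ≤ y ∧ y ≤ x ∧ x * y * z = 1 ∧
    hs k = x + y + z ∧ hs k⁻¹ = x⁻¹ + y⁻¹ + z⁻¹ ∧ Real.exp (gap 0 k) = x / y ∧
    Real.exp (gap 1 k) = y / z ∧ sv k 0 ^ 2 = x := by
  have h0 := abs_ne hk
  have S := isSVD h0
  have hp := prod_sv h0
  rw [hk, Fin.prod_univ_three] at hp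
  have p0 := S.pos 0
  have p1 := S.pos 1
  have p2 := S.pos 2
  have e01 : sv k 1 ≤ sv k 0 := S.anti (by decide)
  have e12 : sv k 2 ≤ sv k 1 := S.anti (by decide)
  have ex : ∀ i : Fin 3, Real.exp (2 * la k i) = sv k i ^ 2 := by
    intro i
    rw [← exp_la h0 i, ← Real.exp_nat_mul]
    norm_num
  refine ⟨sv k 0 ^ 2, sv k 1 ^ 2, sv k 2 ^ 2, by positivity, pow_le_pow_left₀ p2.le e12 2,
    pow_le_pow_left₀ p1.le e01 2, ?_, ?_, ?_, ?_, ?_, rfl⟩
  · rw [← mul_pow, ← mul_pow, hp, one_pow]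
  · rw [S.hs_eq, Fin.sum_univ_three]
  · rw [S.hs_inv, Fin.sum_univ_three]
  · rw [gap, if_pos (by norm_num), mul_sub, Real.exp_sub]
    have a := ex 0
    have b := ex 1
    simp only [Fin.val_zero, Fin.val_one] at a b
    rw [a, b]
  · rw [gap, if_pos (by norm_num), mul_sub, Real.exp_sub]
    have a := ex 1
    have b := ex 2
    simp only [Fin.val_one, Fin.val_two] at a b
    rw [a, show (1 : ℕ) + 1 = 2 from rfl, b]

theorem gap_one_le (hk : |k.det| = 1) : Real.exp (gap 1 k) * hs k ≤ 3 * hs k⁻¹ ^ 2 := by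
  obtain ⟨x, y, z, hz, hzy, hyx, hp, eA, eB, -, e1, -⟩ := three hk
  have hy : 0 < y := hz.trans_le hzy
  have hx : 0 < x := hy.trans_le hyx
  rw [e1, eA, eB]
  have h1 : y / z * (x + y + z) ≤ y / z * (3 * x) :=
    mul_le_mul_of_nonneg_left (by linarith) (by positivity)
  have h2 : y / z * (3 * x) = 3 * (z⁻¹) ^ 2 := by
    field_simp
    linarith
  have h3 : (z⁻¹) ^ 2 ≤ (x⁻¹ + y⁻¹ + z⁻¹) ^ 2 := by
    have : 0 < x⁻¹ := by positivity
    have : 0 < y⁻¹ := by positivity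
    have : 0 < z⁻¹ := by positivity
    exact pow_le_pow_left₀ (by positivity) (by linarith) 2
  linarith

theorem le_gap_one (hk : |k.det| = 1) : hs k⁻¹ ^ 2 ≤ 9 * Real.exp (gap 1 k) * hs k := by
  obtain ⟨x, y, z, hz, hzy, hyx, hp, eA, eB, -, e1, -⟩ := three hk
  have hy : 0 < y := hz.trans_le hzy
  have hx : 0 < x := hy.trans_le hyx
  rw [e1, eA, eB]
  have h1 : x⁻¹ ≤ z⁻¹ := inv_anti₀ hz (hzy.trans hyx)
  have h2 : y⁻¹ ≤ z⁻¹ := inv_anti₀ hz hzy
  have h3 : (x⁻¹ + y⁻¹ + z⁻¹) ^ 2 ≤ (3 * z⁻¹) ^ 2 :=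
    pow_le_pow_left₀ (by positivity) (by linarith) 2
  have h4 : (3 * z⁻¹) ^ 2 = 9 * (y / z) * x := by
    field_simp
    linarith
  have h5 : 9 * (y / z) * x ≤ 9 * (y / z) * (x + y + z) :=
    mul_le_mul_of_nonneg_left (by linarith) (by positivity)
  linarith

theorem gap_zero_le (hk : |k.det| = 1) : Real.exp (gap 0 k) * hs k⁻¹ ≤ 3 * hs k ^ 2 := by
  obtain ⟨x, y, z, hz, hzy, hyx, hp, eA, eB, e0, -, -⟩ := three hk
  have hy : 0 < y := hz.trans_le hzy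
  have hx : 0 < x := hy.trans_le hyx
  rw [e0, eA, eB]
  have h1 : x⁻¹ ≤ z⁻¹ := inv_anti₀ hz (hzy.trans hyx)
  have h2 : y⁻¹ ≤ z⁻¹ := inv_anti₀ hz hzy
  have h3 : x / y * (x⁻¹ + y⁻¹ + z⁻¹) ≤ x / y * (3 * z⁻¹) :=
    mul_le_mul_of_nonneg_left (by linarith) (by positivity)
  have h4 : x / y * (3 * z⁻¹) = 3 * x ^ 2 := by
    have : z⁻¹ = x * y := (eq_inv_of_mul_eq_one_left hp).symm
    rw [this]
    field_simp
  have h5 : x ^ 2 ≤ (x + y + z) ^ 2 := pow_le_pow_left₀ hx.le (by linarith) 2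
  linarith

theorem le_gap_zero (hk : |k.det| = 1) : hs k ^ 2 ≤ 9 * Real.exp (gap 0 k) * hs k⁻¹ := by
  obtain ⟨x, y, z, hz, hzy, hyx, hp, eA, eB, e0, -, -⟩ := three hk
  have hy : 0 < y := hz.trans_le hzy
  have hx : 0 < x := hy.trans_le hyx
  rw [e0, eA, eB]
  have h3 : (x + y + z) ^ 2 ≤ (3 * x) ^ 2 := pow_le_pow_left₀ (by positivity) (by linarith) 2
  have hzi : z⁻¹ = x * y := (eq_inv_of_mul_eq_one_left hp).symm
  have h4 : (3 * x) ^ 2 = 9 * (x / y) * z⁻¹ := by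
    rw [hzi]
    field_simp
    ring
  have h5 : 9 * (x / y) * z⁻¹ ≤ 9 * (x / y) * (x⁻¹ + y⁻¹ + z⁻¹) := by
    have : 0 < x⁻¹ := by positivity
    have : 0 < y⁻¹ := by positivity
    exact mul_le_mul_of_nonneg_left (by linarith) (by positivity)
  linarith

end three

end Vale.Agent.P092.H944
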