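import Vale.Agent.P092.H944.DNw

/-!
P092 (helper944), one simple real factor, block [D-I1G]: the count in a near-wall shell.
-/

namespace Vale.Agent.P092.H944

open Matrix

variable {n : ℕ}

/-- `k` lies in the near-wall shell `[s, s + 1]` with walls at distance at most `R`. -/
structure NwS (R s : ℝ) (k : Matrix (Fin n) (Fin n) ℝ) : Prop where
  lo : s ≤ gap 0 k
  hi : gap 0 k ≤ s + 1
  wall : ∀ j, 1 ≤ j → j + 1 < n → gap j k ≤ R

theorem sum_la {g : Matrix (Fin n) (Fin n) ℝ} (hg : |g.det| = 1) :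
    ∑ i : Fin n, la g i = 0 := by
  have h0 : g.det ≠ 0 := by
    intro h0
    rw [h0, abs_zero] at hg
    exact zero_ne_one hg
  have h := prod_sv h0
  rw [hg] at h
  have h1 : Real.log (∏ i, sv g i) = 0 := by rw [h, Real.log_one]
  rw [Real.log_prod (fun i _ => ((isSVD h0).pos i).ne')] at h1
  rw [← h1]
  exact Finset.sum_congr rfl fun i _ => la_fin g i

theorem abs_ne {g : Matrix (Fin n) (Fin n) ℝ} (hg : |g.det| = 1) : g.det ≠ 0 := by
  intro h0
  rw [h0, abs_zero] at hg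
  exact zero_ne_one hg

theorem NwS.la_hi {R s : ℝ} {k : Matrix (Fin n) (Fin n) ℝ} (h : NwS R s k) (hk : |k.det| = 1)
    {i : ℕ} (h1 : 1 ≤ i) (hi : i < n) : 2 * la k i ≤ 2 * la k 0 - s := by
  have e := sum_gap k (Nat.zero_le i) hi
  have : gap 0 k ≤ ∑ l ∈ Finset.Ico 0 i, gap l k :=
    Finset.single_le_sum (f := fun l => gap l k) (fun l _ => gap_nonneg (abs_ne hk) l)
      (by rw [Finset.mem_Ico]; omega)
  linarith [h.lo]

theorem NwS.la_lo {R s : ℝ} {k : Matrix (Fin n) (Fin n) ℝ} (h : NwS R s k)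
    (hR : 0 ≤ R) (hs0 : 0 ≤ s) {i : ℕ} (hi : i < n) :
    2 * la k 0 - (s + (1 + n * R)) ≤ 2 * la k i := by
  have e := sum_gap k (Nat.zero_le i) hi
  rcases Nat.eq_zero_or_pos i with h0 | h1
  · subst h0
    have : (0 : ℝ) ≤ n * R := by positivity
    linarith
  · have e1 : ∑ l ∈ Finset.Ico 0 i, gap l k = gap 0 k + ∑ l ∈ Finset.Ico 1 i, gap l k := by
      rw [Finset.sum_eq_sum_Ico_succ_bot h1]
    have e2 : ∑ l ∈ Finset.Ico 1 i, gap l k ≤ ∑ _l ∈ Finset.Ico 1 i, R :=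
      Finset.sum_le_sum fun l hl => h.wall l (by rw [Finset.mem_Ico] at hl; omega)
        (by rw [Finset.mem_Ico] at hl; omega)
    rw [Finset.sum_const, Nat.card_Ico, nsmul_eq_mul] at e2
    have e3 : ((i - 1 : ℕ) : ℝ) * R ≤ n * R := by
      refine mul_le_mul_of_nonneg_right ?_ hR
      exact_mod_cast (by omega : i - 1 ≤ n)
    linarith [h.hi]

/-- The first singular values of two elements of the same shell are comparable. -/
theorem NwS.la_zero {R s : ℝ} {k k' : Matrix (Fin n) (Fin n) ℝ} (h : NwS R s k)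
    (h' : NwS R s k') (hk : |k.det| = 1) (hk' : |k'.det| = 1) (hR : 0 ≤ R) (hs0 : 0 ≤ s)
    (hn : 0 < n) : 2 * la k' 0 ≤ 2 * la k 0 + (1 + n * R) := by
  have e := sum_la hk
  have e' := sum_la hk'
  have hn' : (0 : ℝ) < n := by exact_mod_cast hn
  have h1 : ∑ i : Fin n, (2 * la k' 0 - 2 * la k' i) ≤
      ∑ i : Fin n, (2 * la k 0 - 2 * la k i + (1 + n * R)) := by
    refine Finset.sum_le_sum fun i _ => ?_
    rcases Nat.eq_zero_or_pos (i : ℕ) with h0 | hi
    · rw [h0]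
      have : (0 : ℝ) ≤ n * R := by positivity
      linarith
    · have a1 := h'.la_lo hR hs0 i.2
      have a2 := h.la_hi hk hi i.2
      linarith
  simp only [Finset.sum_sub_distrib, Finset.sum_add_distrib, ← Finset.mul_sum, e, e',
    Finset.sum_const, Finset.card_univ, Fintype.card_fin, nsmul_eq_mul] at h1
  have h2 : (n : ℝ) * (2 * la k' 0) ≤ n * (2 * la k 0 + (1 + n * R)) := by linarith
  exact le_of_mul_le_mul_left h2 hn'

/-- The constant of the comparison theorem in a shell. -/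
noncomputable def nwK (n : ℕ) (R c : ℝ) : ℝ :=
  2 / c ^ 2 * Real.exp (1 + n * R) + (2 / c + 1) * Real.exp (2 * (1 + n * R))

theorem NwS.compare {R s c : ℝ} {k k' : Matrix (Fin n) (Fin n) ℝ} (h : NwS R s k)
    (h' : NwS R s k') (hk : |k.det| = 1) (hk' : |k'.det| = 1) (hR : 0 ≤ R) (hs0 : 0 ≤ s)
    (hc : 0 < c) {z : Fin n} (hz : (z : ℕ) = 0) {p : Fin n → ℝ} (hp : p ≠ 0)
    (h1 : c * nq (p ᵥ* k⁻¹) ≤ ((p ᵥ* k⁻¹) ᵥ* kA k) z ^ 2)
    (h2 : c * nq (p ᵥ* k'⁻¹) ≤ ((p ᵥ* k'⁻¹) ᵥ* kA k') z ^ 2) :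
    hs (k' * k⁻¹) ≤ n * nwK n R c := by
  have hn : 0 < n := lt_of_le_of_lt (Nat.zero_le _) z.2
  have g0 := abs_ne hk
  have g0' := abs_ne hk'
  have u : IsUnit k.det := isUnit_iff_ne_zero.mpr g0
  have u' : IsUnit k'.det := isUnit_iff_ne_zero.mpr g0'
  have S := isSVD g0
  have S' := isSVD g0'
  have hz0 : ∀ {g : Matrix (Fin n) (Fin n) ℝ}, g.det ≠ 0 → ∀ i, sv g i ≤ sv g z := by
    intro g hg i
    refine (isSVD hg).anti ?_
    exact Fin.le_def.mpr (by omega)
  have key := fun w => nw_compare S S' z (hz0 g0')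
    (τ := Real.exp (la k' 0 - s / 2)) (ρ := Real.exp (la k 0 - (s + (1 + n * R)) / 2))
    (c := c) (Real.exp_pos _)
    (by
      intro i
      rw [← exp_la g0 i]
      refine Real.exp_le_exp.mpr ?_
      have := h.la_lo hR hs0 i.2
      linarith)
    (by
      intro i hi
      rw [← exp_la g0' i]
      refine Real.exp_le_exp.mpr ?_
      have := h'.la_hi hk' (i := i) (by
        rcases Nat.eq_zero_or_pos (i : ℕ) with e | e
        · exact absurd (Fin.ext (by rw [e, hz])) hi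
        · exact e) i.2
      linarith) hc hp
    (by rw [vecMul_vecMul, nonsing_inv_mul _ u, vecMul_one])
    (by rw [vecMul_vecMul, nonsing_inv_mul _ u', vecMul_one]) h1 h2 w
  refine hs_le_of_compare u fun w => (key w).trans ?_
  refine mul_le_mul_of_nonneg_right ?_ (nq_nonneg _)
  unfold nwK
  have l0 := h.la_zero h' hk hk' hR hs0 hn
  have e1 : (sv k' z / sv k z) ^ 2 ≤ Real.exp (1 + n * R) := by
    rw [← exp_la g0 z, ← exp_la g0' z, hz, ← Real.exp_sub, ← Real.exp_nat_mul]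
    refine Real.exp_le_exp.mpr ?_
    push_cast
    linarith
  have e2 : (Real.exp (la k' 0 - s / 2) / Real.exp (la k 0 - (s + (1 + n * R)) / 2)) ^ 2 ≤
      Real.exp (2 * (1 + n * R)) := by
    rw [← Real.exp_sub, ← Real.exp_nat_mul]
    refine Real.exp_le_exp.mpr ?_
    push_cast
    linarith
  refine add_le_add ?_ ?_
  · exact mul_le_mul_of_nonneg_left e1 (by positivity)
  · exact mul_le_mul_of_nonneg_left e2 (by positivity)

section group

variable {Γ : Type} [Group Γ] {m : Γ → Matrix (Fin n) (Fin n) ℝ}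

theorem hs_neg (g : Matrix (Fin n) (Fin n) ℝ) : hs (-g) = hs g := by
  unfold hs
  exact Finset.sum_congr rfl fun i _ => Finset.sum_congr rfl fun j _ => by
    rw [Matrix.neg_apply, neg_sq]

theorem Emb.hs_div (h : Emb m) (g g0 : Γ) : hs (m (g * g0⁻¹)) = hs (m g * (m g0)⁻¹) := by
  have u : IsUnit (m g0).det := isUnit_iff_ne_zero.mpr (h.ne g0)
  rcases h.mul (g * g0⁻¹) g0 with e | e <;> rw [inv_mul_cancel_right] at e
  · rw [e, Matrix.mul_assoc, mul_nonsing_inv _ u, Matrix.mul_one]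
  · rw [e, Matrix.neg_mul, Matrix.mul_assoc, mul_nonsing_inv _ u, Matrix.mul_one, hs_neg]

/-- `k` sends the functional `p` away from its attracting point, angle at least `√c`. -/
def Away (c : ℝ) (p : Fin n → ℝ) (k : Matrix (Fin n) (Fin n) ℝ) : Prop :=
  ∃ z : Fin n, (z : ℕ) = 0 ∧ c * nq (p ᵥ* k⁻¹) ≤ ((p ᵥ* k⁻¹) ᵥ* kA k) z ^ 2

/-- **Bounded multiplicity.** -/
theorem Emb.nw_mult (h : Emb m) {R c : ℝ} (hR : 0 ≤ R) (hc : 0 < c) :
    ∃ N : ℕ, ∀ s : ℝ, 0 ≤ s → ∀ p : Fin n → ℝ, p ≠ 0 → ∀ F : Finset Γ,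
      (∀ g ∈ F, NwS R s (m g) ∧ Away c p (m g)) → F.card ≤ N := by
  classical
  refine ⟨(h.fin (n * nwK n R c)).toFinset.card, fun s hs0 p hp F hF => ?_⟩
  rcases F.eq_empty_or_nonempty with h0 | ⟨g0, hg0⟩
  · rw [h0]
    exact Nat.zero_le _
  · refine Finset.card_le_card_of_injOn (fun g => g * g0⁻¹) ?_
      fun a _ b _ hab => mul_right_cancel hab
    intro g hg
    obtain ⟨a1, z, hz, a2⟩ := hF g0 hg0
    obtain ⟨b1, z', hz', b2⟩ := hF g (Finset.mem_coe.mp hg)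
    have ez : z' = z := Fin.ext (by rw [hz, hz'])
    rw [ez] at b2
    simp only [Set.Finite.coe_toFinset, Set.mem_ofPred_eq]
    rw [h.hs_div]
    exact a1.compare b1 (h.abs_det g0) (h.abs_det g) hR hs0 hc hz hp a2 b2

/-- The count up to size `J`. -/
theorem Emb.nw_mult_le (h : Emb m) {R c : ℝ} (hR : 0 ≤ R) (hc : 0 < c) :
    ∃ N : ℕ, ∀ J : ℕ, ∀ p : Fin n → ℝ, p ≠ 0 → ∀ F : Finset Γ,
      (∀ g ∈ F, gap 0 (m g) ≤ J ∧ (∀ j, 1 ≤ j → j + 1 < n → gap j (m g) ≤ R) ∧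
        Away c p (m g)) → F.card ≤ N * (J + 1) := by
  classical
  obtain ⟨N, hN⟩ := h.nw_mult hR hc
  refine ⟨N, fun J p hp F hF => ?_⟩
  have e : F = (Finset.range (J + 1)).biUnion
      (fun s => F.filter fun g => ⌊gap 0 (m g)⌋₊ = s) := by
    ext g
    simp only [Finset.mem_biUnion, Finset.mem_range, Finset.mem_filter]
    constructor
    · intro hg
      refine ⟨_, ?_, hg, rfl⟩
      have := Nat.floor_le_of_le (hF g hg).1
      omega
    · rintro ⟨s, _, hg, _⟩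
      exact hg
  rw [e]
  refine Finset.card_biUnion_le.trans ?_
  refine (Finset.sum_le_card_nsmul _ _ N fun s _ => ?_).trans (by
    rw [Finset.card_range, smul_eq_mul, mul_comm])
  refine hN s (Nat.cast_nonneg s) p hp _ fun g hg => ?_
  rw [Finset.mem_filter] at hg
  obtain ⟨a1, a2, a3⟩ := hF g hg.1
  have g0 := gap_nonneg (h.ne g) 0
  refine ⟨⟨?_, ?_, a2⟩, a3⟩
  · rw [← hg.2]
    exact Nat.floor_le g0
  · rw [← hg.2]
    exact (Nat.lt_floor_add_one _).le

end group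

end Vale.Agent.P092.H944
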