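import Mathlib

/-!
P092 (helper944), rank theorem: singular value decompositions of real `n × n` matrices.
-/

namespace Vale.Agent.P092.H944

open Matrix

variable {n : ℕ}

/-- Square of the Hilbert-Schmidt norm. -/
def hs (m : Matrix (Fin n) (Fin n) ℝ) : ℝ := ∑ i, ∑ j, m i j ^ 2

lemma hs_nonneg (m : Matrix (Fin n) (Fin n) ℝ) : 0 ≤ hs m :=
  Finset.sum_nonneg fun _ _ => Finset.sum_nonneg fun _ _ => sq_nonneg _

lemma hs_eq (m : Matrix (Fin n) (Fin n) ℝ) : hs m = trace (m * mᵀ) := by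
  unfold hs trace
  refine Finset.sum_congr rfl fun i _ => ?_
  rw [diag_apply, Matrix.mul_apply]
  exact Finset.sum_congr rfl fun j _ => by rw [transpose_apply, sq]

lemma hs_transpose (m : Matrix (Fin n) (Fin n) ℝ) : hs mᵀ = hs m := by
  unfold hs
  rw [Finset.sum_comm]
  rfl

lemma hs_mul_orth (m : Matrix (Fin n) (Fin n) ℝ) {U : Matrix (Fin n) (Fin n) ℝ}
    (h : U * Uᵀ = 1) : hs (m * U) = hs m := by
  rw [hs_eq, hs_eq, transpose_mul, show m * U * (Uᵀ * mᵀ) = m * (U * Uᵀ) * mᵀ by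
    simp only [Matrix.mul_assoc], h, Matrix.mul_one]

lemma hs_orth_mul (m : Matrix (Fin n) (Fin n) ℝ) {U : Matrix (Fin n) (Fin n) ℝ}
    (h : Uᵀ * U = 1) : hs (U * m) = hs m := by
  rw [← hs_transpose, transpose_mul, hs_mul_orth _ (by rwa [transpose_transpose]), hs_transpose]

lemma sq_entry_le (m : Matrix (Fin n) (Fin n) ℝ) (i j : Fin n) : m i j ^ 2 ≤ hs m := by
  unfold hs
  refine le_trans ?_ (Finset.single_le_sum (f := fun i => ∑ j, m i j ^ 2)
    (fun i _ => Finset.sum_nonneg fun j _ => sq_nonneg _) (Finset.mem_univ i))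
  exact Finset.single_le_sum (f := fun j => m i j ^ 2) (fun j _ => sq_nonneg _)
    (Finset.mem_univ j)

lemma abs_entry_le (m : Matrix (Fin n) (Fin n) ℝ) (i j : Fin n) : |m i j| ≤ Real.sqrt (hs m) :=
  Real.abs_le_sqrt (sq_entry_le m i j)

/-- `(k1, a, k2)` is a singular value decomposition of `g`. -/
structure IsSVD (g k1 : Matrix (Fin n) (Fin n) ℝ) (a : Fin n → ℝ)
    (k2 : Matrix (Fin n) (Fin n) ℝ) : Prop where
  o1 : k1ᵀ * k1 = 1
  o1' : k1 * k1ᵀ = 1
  o2 : k2ᵀ * k2 = 1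
  o2' : k2 * k2ᵀ = 1
  pos : ∀ i, 0 < a i
  anti : Antitone a
  eq : g = k1 * diagonal a * k2

theorem exists_svd (g : Matrix (Fin n) (Fin n) ℝ) (hg : g.det ≠ 0) :
    ∃ k1 a k2, IsSVD g k1 a k2 := by
  have hu : IsUnit g.det := isUnit_iff_ne_zero.mpr hg
  have hpd : (g * gᵀ).PosDef := by
    have := Matrix.PosDef.mul_conjTranspose_self g (by
      intro v w hvw
      have h1 : (v ᵥ* g) ᵥ* g⁻¹ = (w ᵥ* g) ᵥ* g⁻¹ := by
        have : v ᵥ* g = w ᵥ* g := hvw
        rw [this]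
      simpa [vecMul_vecMul, mul_nonsing_inv g hu] using h1)
    simpa [conjTranspose_eq_transpose_of_trivial] using this
  have hA := hpd.1
  obtain ⟨V, hV⟩ : ∃ V : Matrix (Fin n) (Fin n) ℝ, V = hA.eigenvectorUnitary := ⟨_, rfl⟩
  have hV1 : Vᵀ * V = 1 := by
    have := Unitary.coe_star_mul_self hA.eigenvectorUnitary
    rw [hV]
    simpa [star_eq_conjTranspose, conjTranspose_eq_transpose_of_trivial] using this
  have hD : Vᵀ * (g * gᵀ) * V = diagonal hA.eigenvalues := by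
    have := hA.conjStarAlgAut_star_eigenvectorUnitary
    rw [Unitary.conjStarAlgAut_star_apply] at this
    rw [hV]
    simpa [star_eq_conjTranspose, conjTranspose_eq_transpose_of_trivial] using this
  obtain ⟨σ, hσ⟩ : ∃ σ : Equiv.Perm (Fin n), σ = Tuple.sort (fun i => - hA.eigenvalues i) :=
    ⟨_, rfl⟩
  have hmono : Monotone ((fun i => - hA.eigenvalues i) ∘ σ) := by
    rw [hσ]; exact Tuple.monotone_sort _
  have hpos : ∀ i, 0 < hA.eigenvalues i := fun i => hpd.eigenvalues_pos i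
  obtain ⟨k1, hk1⟩ : ∃ k1 : Matrix (Fin n) (Fin n) ℝ, k1 = V.submatrix id σ := ⟨_, rfl⟩
  have hsub : ∀ X : Matrix (Fin n) (Fin n) ℝ, k1ᵀ * X * k1 = (Vᵀ * X * V).submatrix σ σ := by
    intro X
    rw [hk1]
    ext i j
    simp [Matrix.mul_apply, submatrix_apply]
  have o1 : k1ᵀ * k1 = 1 := by
    have := hsub 1
    rw [Matrix.mul_one, Matrix.mul_one, hV1] at this
    rw [this]
    exact submatrix_one_equiv σ
  have o1' : k1 * k1ᵀ = 1 := mul_eq_one_comm.mp o1
  obtain ⟨a, ha⟩ : ∃ a : Fin n → ℝ, a = fun i => Real.sqrt (hA.eigenvalues (σ i)) := ⟨_, rfl⟩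
  have apos : ∀ i, 0 < a i := fun i => by rw [ha]; exact Real.sqrt_pos.mpr (hpos _)
  have asq : ∀ i, a i * a i = hA.eigenvalues (σ i) := fun i => by
    rw [ha]; exact Real.mul_self_sqrt (hpos _).le
  have hUD : k1ᵀ * (g * gᵀ) * k1 = diagonal a * diagonal a := by
    rw [hsub, hD, diagonal_mul_diagonal]
    ext i j
    simp only [submatrix_apply, diagonal_apply, σ.injective.eq_iff]
    split_ifs with h
    · rw [asq]
    · rfl
  have hinv : diagonal (fun i => (a i)⁻¹) * diagonal a = (1 : Matrix (Fin n) (Fin n) ℝ) := by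
    rw [diagonal_mul_diagonal, ← diagonal_one]
    congr 1
    funext i
    exact inv_mul_cancel₀ (apos i).ne'
  have hinv' : diagonal a * diagonal (fun i => (a i)⁻¹) = (1 : Matrix (Fin n) (Fin n) ℝ) :=
    mul_eq_one_comm.mp hinv
  obtain ⟨k2, hk2⟩ : ∃ k2 : Matrix (Fin n) (Fin n) ℝ,
    k2 = diagonal (fun i => (a i)⁻¹) * k1ᵀ * g := ⟨_, rfl⟩
  have o2' : k2 * k2ᵀ = 1 := by
    rw [hk2]
    have : (diagonal (fun i => (a i)⁻¹) * k1ᵀ * g)ᵀ = gᵀ * k1 * diagonal (fun i => (a i)⁻¹) := by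
      rw [transpose_mul, transpose_mul, transpose_transpose, diagonal_transpose,
        Matrix.mul_assoc]
    rw [this]
    calc _ = diagonal (fun i => (a i)⁻¹) * (k1ᵀ * (g * gᵀ) * k1) *
          diagonal (fun i => (a i)⁻¹) := by simp only [Matrix.mul_assoc]
      _ = (diagonal (fun i => (a i)⁻¹) * diagonal a) * (diagonal a *
          diagonal (fun i => (a i)⁻¹)) := by rw [hUD]; simp only [Matrix.mul_assoc]
      _ = 1 := by rw [hinv, hinv', Matrix.one_mul]
  refine ⟨k1, a, k2, o1, o1', mul_eq_one_comm.mp o2', o2', apos, ?_, ?_⟩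
  · intro i j hij
    have h := hmono hij
    simp only [Function.comp_apply, neg_le_neg_iff] at h
    rw [ha]
    exact Real.sqrt_le_sqrt h
  · rw [hk2]
    calc g = 1 * g := by rw [Matrix.one_mul]
      _ = k1 * (diagonal a * diagonal (fun i => (a i)⁻¹)) * k1ᵀ * g := by
          rw [hinv', Matrix.mul_one, o1']
      _ = _ := by simp only [Matrix.mul_assoc]

end Vale.Agent.P092.H944
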