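import Vale.Agent.P092.H944.Gauge
import Vale.Agent.P092.H515.R1d
import Vale.Agent.P092.H377.SumN

/-!
P092 (helper944), rank theorem: the geometric functions of a discrete group of real matrices
(multiplicative up to sign), in every rank.
-/

namespace Vale.Agent.P092.H944

open Matrix

variable {n : ℕ}

/-- A map to real matrices, multiplicative up to sign, with determinant `±1` and finite balls. -/
structure Emb {Γ : Type} [Group Γ] (m : Γ → Matrix (Fin n) (Fin n) ℝ) : Prop where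
  mul : ∀ g h, m (g * h) = m g * m h ∨ m (g * h) = -(m g * m h)
  det : ∀ g, (m g).det ^ 2 = 1
  fin : ∀ R : ℝ, {g | hs (m g) ≤ R}.Finite

theorem wf_neg (D : Fin n → ℝ) (b : Matrix (Fin n) (Fin n) ℝ) : wf D (-b) = wf D b := by
  unfold wf
  refine Finset.sum_congr rfl fun i _ => ?_
  congr 1
  refine Finset.sum_congr rfl fun c _ => ?_
  rw [Matrix.neg_apply, neg_sq]

theorem gf_neg (θ : Finset ℕ) (t : ℕ → ℝ) (g b : Matrix (Fin n) (Fin n) ℝ) :
    gf θ t g (-b) = gf θ t g b := by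
  unfold gf
  rw [Matrix.mul_neg, wf_neg]

theorem g0_neg (θ : Finset ℕ) (t : ℕ → ℝ) (g b : Matrix (Fin n) (Fin n) ℝ) :
    g0 θ t g (-b) = g0 θ t g b := by
  unfold g0
  rw [Matrix.mul_neg, wf_neg]

theorem gf_congr {θ : Finset ℕ} {t t' : ℕ → ℝ} (h : ∀ l ∈ θ, t l = t' l)
    (g b : Matrix (Fin n) (Fin n) ℝ) : gf θ t g b = gf θ t' g b := by
  have e : uu θ t g = uu θ t' g := by
    funext l
    unfold uu
    split_ifs with hl
    · exact h l hl
    · rfl
  unfold gf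
  rw [e]

/-- Bounded gaps bound the matrix. -/
theorem hs_le_of_gap' {g : Matrix (Fin n) (Fin n) ℝ} (hg : |g.det| = 1) {R : ℝ}
    (h : ∀ j, j + 1 < n → gap j g ≤ R) : hs g ≤ n * Real.exp (n * |R|) := by
  have hg0 : g.det ≠ 0 := by
    intro h0
    rw [h0, abs_zero] at hg
    exact zero_ne_one hg
  rcases Nat.eq_zero_or_pos n with hn | hn
  · subst hn
    simp [hs]
  have hlast : n - 1 < n := by omega
  have hR : ∀ i : Fin n, 2 * la g i ≤ 2 * la g (n - 1) + n * |R| := by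
    intro i
    have e := sum_gap g (Nat.le_sub_one_of_lt i.2) hlast
    have e2 : ∑ l ∈ Finset.Ico (i : ℕ) (n - 1), gap l g ≤
        ∑ l ∈ Finset.Ico (i : ℕ) (n - 1), |R| :=
      Finset.sum_le_sum fun l hl =>
        (h l (by rw [Finset.mem_Ico] at hl; omega)).trans (le_abs_self R)
    rw [Finset.sum_const, Nat.card_Ico, nsmul_eq_mul] at e2
    have e3 : ((n - 1 - (i : ℕ) : ℕ) : ℝ) * |R| ≤ n * |R| := by
      refine mul_le_mul_of_nonneg_right ?_ (abs_nonneg R)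
      exact_mod_cast (by omega : n - 1 - (i : ℕ) ≤ n)
    linarith
  have hl : la g (n - 1) ≤ 0 := by
    have hp := prod_sv hg0
    rw [hg] at hp
    have h1 : sv g ⟨n - 1, hlast⟩ ^ n ≤ 1 := by
      rw [← hp]
      calc sv g ⟨n - 1, hlast⟩ ^ n = ∏ _i : Fin n, sv g ⟨n - 1, hlast⟩ := by simp
        _ ≤ ∏ i, sv g i := by
          refine Finset.prod_le_prod (fun i _ => ((isSVD hg0).pos _).le) fun i _ => ?_
          refine (isSVD hg0).anti ?_
          exact Fin.le_def.mpr (Nat.le_sub_one_of_lt i.2)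
    have h2 : sv g ⟨n - 1, hlast⟩ ≤ 1 := by
      by_contra hc
      exact absurd h1 (not_le.mpr (one_lt_pow₀ (not_le.mp hc) (by omega)))
    rw [la, dif_pos hlast]
    exact Real.log_nonpos ((isSVD hg0).pos _).le h2
  rw [hs_eq_sum_sv hg0]
  calc ∑ i, sv g i ^ 2 ≤ ∑ _i : Fin n, Real.exp (n * |R|) := by
        refine Finset.sum_le_sum fun i _ => ?_
        rw [← exp_la hg0 i, ← Real.exp_nat_mul]
        refine Real.exp_le_exp.mpr ?_
        have := hR i
        push_cast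
        linarith
    _ = _ := by simp

section

variable {Γ : Type} [Group Γ] {m : Γ → Matrix (Fin n) (Fin n) ℝ}

theorem Emb.ne (h : Emb m) (g : Γ) : (m g).det ≠ 0 := by
  intro h0
  have := h.det g
  rw [h0] at this
  norm_num at this

theorem Emb.abs_det (h : Emb m) (g : Γ) : |(m g).det| = 1 := by
  have := h.det g
  rw [← sq_abs] at this
  nlinarith [abs_nonneg (m g).det]

theorem neg_det_ne {g : Matrix (Fin n) (Fin n) ℝ} (h : g.det ≠ 0) : (-g).det ≠ 0 := by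
  rw [det_neg]
  exact mul_ne_zero (pow_ne_zero _ (by norm_num)) h

/-- Left multiplication, with the sign absorbed in `s`. -/
theorem Emb.left_cases (h : Emb m) (s g : Γ) :
    ∃ s' : Matrix (Fin n) (Fin n) ℝ, (s' = m s ∨ s' = -m s) ∧ s'.det ≠ 0 ∧
      m (s * g) = s' * m g := by
  rcases h.mul s g with e | e
  · exact ⟨m s, Or.inl rfl, h.ne s, e⟩
  · exact ⟨-m s, Or.inr rfl, neg_det_ne (h.ne s), by rw [e, Matrix.neg_mul]⟩

theorem Emb.right_cases (h : Emb m) (g t : Γ) :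
    ∃ t' : Matrix (Fin n) (Fin n) ℝ, (t' = m t ∨ t' = -m t) ∧ t'.det ≠ 0 ∧
      m (g * t) = m g * t' := by
  rcases h.mul g t with e | e
  · exact ⟨m t, Or.inl rfl, h.ne t, e⟩
  · exact ⟨-m t, Or.inr rfl, neg_det_ne (h.ne t), by rw [e, Matrix.mul_neg]⟩

/-- The quasi-invariance constant. -/
noncomputable def lcs (s : Matrix (Fin n) (Fin n) ℝ) : ℝ := lc s + lc (-s)

theorem lc_le_lcs {s s' : Matrix (Fin n) (Fin n) ℝ} (h : s' = s ∨ s' = -s) : lc s' ≤ lcs s := by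
  have h1 := lc_nonneg s
  have h2 := lc_nonneg (-s)
  unfold lcs
  rcases h with h | h <;> rw [h] <;> linarith

theorem lcs_nonneg (s : Matrix (Fin n) (Fin n) ℝ) : 0 ≤ lcs s :=
  add_nonneg (lc_nonneg _) (lc_nonneg _)

theorem Emb.gap_left (h : Emb m) (s g : Γ) (j : ℕ) :
    |gap j (m (s * g)) - gap j (m g)| ≤ 4 * lcs (m s) := by
  obtain ⟨s', h1, h2, h3⟩ := h.left_cases s g
  rw [h3]
  exact (abs_gap_left h2 (h.ne g) j).trans
    (mul_le_mul_of_nonneg_left (lc_le_lcs h1) (by norm_num))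

theorem Emb.gap_right (h : Emb m) (g t : Γ) (j : ℕ) :
    |gap j (m (g * t)) - gap j (m g)| ≤ 4 * lcs (m t) := by
  obtain ⟨t', h1, h2, h3⟩ := h.right_cases g t
  rw [h3]
  exact (abs_gap_right h2 (h.ne g) j).trans
    (mul_le_mul_of_nonneg_left (lc_le_lcs h1) (by norm_num))

theorem Emb.gap_quasi (h : Emb m) (s g t : Γ) (j : ℕ) :
    |gap j (m (s * g * t)) - gap j (m g)| ≤ 4 * lcs (m s) + 4 * lcs (m t) := by
  have e1 := h.gap_left s g j
  have e2 := h.gap_right (s * g) t j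
  rw [abs_le] at e1 e2 ⊢
  constructor <;> linarith [e1.1, e1.2, e2.1, e2.2]

theorem Emb.gap_finite (h : Emb m) (R : ℝ) :
    {g : Γ | ∀ j, j + 1 < n → gap j (m g) ≤ R}.Finite :=
  (h.fin (n * Real.exp (n * |R|))).subset fun g hg => hs_le_of_gap' (h.abs_det g) hg

/-- Transport of the parameters. -/
noncomputable def tt {J : Type} (e : J ↪ ℕ) (θ : Finset J) (t : {j // j ∈ θ} → ℝ) (l : ℕ) : ℝ :=
  open Classical in if hl : ∃ j : {j // j ∈ θ}, e j = l then t hl.choose else 0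

theorem tt_apply {J : Type} (e : J ↪ ℕ) (θ : Finset J) (t : {j // j ∈ θ} → ℝ)
    (j : {j // j ∈ θ}) : tt e θ t (e j) = t j := by
  have h : ∃ j' : {j // j ∈ θ}, e j' = e j := ⟨j, rfl⟩
  unfold tt
  rw [dif_pos h]
  congr 1
  exact Subtype.ext (e.injective h.choose_spec)

theorem tt_mem {J : Type} (e : J ↪ ℕ) (θ : Finset J) (t : {j // j ∈ θ} → ℝ) {P : ℝ → Prop}
    (h : ∀ j, P (t j)) : ∀ l ∈ θ.map e, P (tt e θ t l) := by
  intro l hl
  obtain ⟨j, hj, rfl⟩ := Finset.mem_map.mp hl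
  rw [tt_apply e θ t ⟨j, hj⟩]
  exact h _

/-- **The geometric theorem.** -/
theorem geo_raw [DecidableEq Γ] (hn : 0 < n) (h : Emb m) {J : Type} [Fintype J] [DecidableEq J]
    (e : J ↪ ℕ) {R0 : ℝ}
    (h0 : ∀ l, l + 1 < n → (∀ j, e j ≠ l) → ∀ g, gap l (m g) ≤ R0) (θ : Finset J) :
    ∀ R : ℝ, ∃ c : ℝ, 0 < c ∧ ∀ (S : Finset Γ) (ε : ℝ), 0 < ε → ∀ R1 : ℝ,
    ∃ (B : Finset Γ) (F H : Γ → Γ → ℝ) (D : ℝ),
      (∀ b g, 0 ≤ F b g) ∧ (∀ b g, 0 ≤ H b g) ∧
      (∀ b ∉ B, ∀ g, F b g = 0) ∧ (∀ b ∉ B, ∀ g, H b g = 0) ∧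
      (∀ g, ∑ b ∈ B, F b g ^ 2 ≤ 1) ∧ (∀ g, ∑ b ∈ B, H b g ^ 2 ≤ 1) ∧
      (∀ s ∈ S, ∀ g, (∀ j ∈ θ, D ≤ gap (e j) (m g)) → (∀ j, j ∉ θ → gap (e j) (m g) ≤ R1) →
        ∑ b ∈ B ∪ B.image (fun b => s⁻¹ * b), (F (s * b) (s * g) - F b g) ^ 2 ≤ ε) ∧
      (∀ t : Γ, ∀ η : ℝ, 0 < η → ∃ D' : ℝ, ∀ g, (∀ j ∈ θ, D' ≤ gap (e j) (m g)) →
        ∀ b, |H b (g * t) - H b g| ≤ η) ∧
      (∀ g, (∀ j ∈ θ, D ≤ gap (e j) (m g)) → (∀ j, j ∉ θ → gap (e j) (m g) ≤ R) →
        c ≤ ∑ b ∈ B, F b g * H b g) := by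
  classical
  -- the bounds outside of `θ`
  have hout : ∀ R (g : Γ), (∀ j, j ∉ θ → gap (e j) (m g) ≤ R) →
      ∀ l, l ∉ θ.map e → l + 1 < n → gap l (m g) ≤ max R R0 := by
    intro R g hR l hl hln
    by_cases hj : ∃ j, e j = l
    · obtain ⟨j, rfl⟩ := hj
      have hjθ : j ∉ θ := fun hjm => hl (Finset.mem_map_of_mem e hjm)
      exact (hR j hjθ).trans (le_max_left _ _)
    · push Not at hj
      exact (h0 l hln hj g).trans (le_max_right _ _)
  have hin : ∀ R (g : Γ), (∀ j ∈ θ, R ≤ gap (e j) (m g)) →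
      ∀ l ∈ θ.map e, R ≤ gap l (m g) := by
    intro R g hR l hl
    obtain ⟨j, hj, rfl⟩ := Finset.mem_map.mp hl
    exact hR j hj
  have hsum : ∀ d : {j // j ∈ θ} → ℝ, ∑ l ∈ θ.map e, |tt e θ d l| = ∑ j, |d j| := by
    intro d
    rw [Finset.sum_map]
    rw [← Finset.sum_coe_sort θ (fun j => |tt e θ d (e j)|)]
    refine Finset.sum_congr rfl fun j _ => ?_
    rw [tt_apply]
  refine H515.R1d.asmR (J := {j // j ∈ θ}) (N := H377.expo n) (w := fun b => hs (m b))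
    (f := fun t g b => gf (θ.map e) (tt e θ t) (m g) (m b))
    (f0 := fun t g b => g0 (θ.map e) (tt e θ t) (m g) (m b)) (A := 1)
    (fun R g => ∀ j ∈ θ, R ≤ gap (e j) (m g)) (fun R g => ∀ j, j ∉ θ → gap (e j) (m g) ≤ R)
    ?_ ?_ ?_ ?_ ?_ ?_ ?_ ?_ ?_ ?_ ?_ ?_ ?_
  · exact fun R R' g hRR hg j hj => hRR.trans (hg j hj)
  · exact fun R R' g hRR hg j hj => (hg j hj).trans hRR
  · intro s
    refine ⟨4 * lcs (m s), fun R g hg j hj => ?_⟩
    have := (abs_le.mp (h.gap_left s g (e j))).2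
    linarith [hg j hj]
  · exact fun b => hs_pos (h.ne b) hn
  · exact H377.summable_hsn m h.mul h.det h.fin
  · intro t g
    obtain ⟨c, hc, h1⟩ := gf_lo (θ.map e) (tt e θ t) (h.ne g)
    exact ⟨c, hc, fun b => h1 (m b)⟩
  · intro t g
    obtain ⟨c, hc, h1⟩ := g0_lo (θ.map e) (tt e θ t) (h.ne g)
    exact ⟨c, hc, fun b => h1 (m b)⟩
  · intro R T
    refine ⟨1, one_pos, Real.exp (n * (|T| + |max R R0|)), fun g hg t ht b => ?_⟩
    have := gf_bd (h.ne g) (hout R g hg)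
      (tt_mem e θ t (P := fun x => 0 ≤ x) fun j => (ht j).1)
      (tt_mem e θ t (P := fun x => x ≤ T) fun j => (ht j).2) (m b)
    rwa [one_mul]
  · intro T
    refine ⟨1, one_pos, Real.exp (n * |T|), fun g t ht b => ?_⟩
    have := g0_bd (h.ne g)
      (tt_mem e θ t (P := fun x => 0 ≤ x) fun j => (ht j).1)
      (tt_mem e θ t (P := fun x => x ≤ T) fun j => (ht j).2) (m b)
    rwa [one_mul]
  · intro t d g b
    have e1 : gf (θ.map e) (tt e θ (t + d)) (m g) (m b) =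
        gf (θ.map e) (fun l => tt e θ t l + tt e θ d l) (m g) (m b) := by
      refine gf_congr (fun l hl => ?_) _ _
      obtain ⟨j, hj, rfl⟩ := Finset.mem_map.mp hl
      rw [tt_apply e θ _ ⟨j, hj⟩, tt_apply e θ _ ⟨j, hj⟩, tt_apply e θ _ ⟨j, hj⟩]
      rfl
    simp only [one_mul]
    rw [e1, ← hsum]
    exact gf_lip _ _ _ _ _
  · intro s R1
    refine ⟨4 * lcs (m s), fun ρ hρ => ?_⟩
    obtain ⟨L1, hL1⟩ := gf_left (θ := θ.map e) (h.ne s) hρ
    obtain ⟨L2, hL2⟩ := gf_left (θ := θ.map e) (neg_det_ne (h.ne s)) hρ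
    refine ⟨max L1 L2, fun T => ?_⟩
    obtain ⟨D1, hD1⟩ := hL1 T
    obtain ⟨D2, hD2⟩ := hL2 T
    refine ⟨max D1 D2, fun g hg _ => ?_⟩
    obtain ⟨s', h1, h2, h3⟩ := h.left_cases s g
    refine ⟨Real.exp (2 * la (m g) 0 - 2 * la (m (s * g)) 0), Real.exp_pos _,
      fun j : {j // j ∈ θ} => gap (e j) (m (s * g)) - gap (e j) (m g),
      fun j => h.gap_left s g _, fun t ht b => ?_⟩
    have e1 : gf (θ.map e) (tt e θ (t + fun j : {j // j ∈ θ} => gap (e j) (m (s * g)) - gap (e j) (m g)))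
        (m (s * g)) (m (s * b)) =
        gf (θ.map e) (fun l => tt e θ t l + (gap l (s' * m g) - gap l (m g)))
          (s' * m g) (s' * m b) := by
      have e2 : gf (θ.map e) (tt e θ (t + fun j : {j // j ∈ θ} => gap (e j) (m (s * g)) - gap (e j) (m g)))
        (m (s * g)) (m (s * b)) =
          gf (θ.map e) (fun l => tt e θ t l + (gap l (s' * m g) - gap l (m g)))
          (m (s * g)) (m (s * b)) := by
        refine gf_congr (fun l hl => ?_) _ _
        obtain ⟨j, hj, rfl⟩ := Finset.mem_map.mp hl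
        rw [tt_apply e θ _ ⟨j, hj⟩, tt_apply e θ _ ⟨j, hj⟩, h3]
        rfl
      rw [e2, h3]
      have e4 : m (s * b) = s' * m b ∨ m (s * b) = -(s' * m b) := by
        rcases h1 with h1 | h1 <;> rcases h.mul s b with e5 | e5 <;> rw [h1, e5]
        · exact Or.inl rfl
        · exact Or.inr rfl
        · exact Or.inr (by rw [Matrix.neg_mul, neg_neg])
        · exact Or.inl (by rw [Matrix.neg_mul])
      rcases e4 with e4 | e4 <;> rw [e4]
      rw [gf_neg]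
    rw [e1, h3]
    have hT : ∀ l ∈ θ.map e, max L1 L2 ≤ tt e θ t l ∧ tt e θ t l ≤ T :=
      tt_mem e θ t (P := fun x => max L1 L2 ≤ x ∧ x ≤ T) ht
    rcases h1 with h1 | h1
    · rw [h1]
      exact hD1 (m g) (h.ne g)
        (fun l hl => (le_max_left _ _).trans (hin _ g hg l hl)) _
        (fun l hl => ⟨(le_max_left _ _).trans (hT l hl).1, (hT l hl).2⟩) (m b)
    · rw [h1]
      exact hD2 (m g) (h.ne g)
        (fun l hl => (le_max_right _ _).trans (hin _ g hg l hl)) _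
        (fun l hl => ⟨(le_max_right _ _).trans (hT l hl).1, (hT l hl).2⟩) (m b)
  · intro u T η hη
    obtain ⟨D1, hD1⟩ := g0_right (θ := θ.map e) (h.ne u) (T := T) hη
    obtain ⟨D2, hD2⟩ := g0_right (θ := θ.map e) (neg_det_ne (h.ne u)) (T := T) hη
    refine ⟨max D1 D2, fun g hg t ht b => ?_⟩
    obtain ⟨u', h1, h2, h3⟩ := h.right_cases g u
    have hT : ∀ l ∈ θ.map e, 0 ≤ tt e θ t l ∧ tt e θ t l ≤ T :=
      tt_mem e θ t (P := fun x => 0 ≤ x ∧ x ≤ T) ht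
    rw [h3]
    rcases h1 with h1 | h1
    · rw [h1]
      exact hD1 (m g) (h.ne g)
        (fun l hl => (le_max_left _ _).trans (hin _ g hg l hl)) _ hT (m b)
    · rw [h1]
      exact hD2 (m g) (h.ne g)
        (fun l hl => (le_max_right _ _).trans (hin _ g hg l hl)) _ hT (m b)
  · intro R
    refine ⟨Real.exp (n * |max R R0|), Real.one_le_exp (by positivity), fun T => ⟨0, ?_⟩⟩
    intro g _ hg t _ b
    have h1 := gf_g0 (t := tt e θ t) (h.ne g) (hout R g hg) (m b)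
    refine ⟨h1.2, h1.1.trans ?_⟩
    have h2 : 0 ≤ gf (θ.map e) (tt e θ t) (m g) (m b) :=
      wf_nonneg (fun i => (Real.exp_pos _).le) _
    exact le_mul_of_one_le_left h2 (Real.one_le_exp (by positivity))

end

end Vale.Agent.P092.H944
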