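import Vale.Agent.P092.H465.Rk.Gen
import Vale.Agent.P092.H35.Rp.Qfp
import Vale.Agent.P092.H45.Rk.T1

/-!
P092, project RANK-ALL (helper944): the source group of rank `r` from simple roots of rank `r`, over
every local field of characteristic zero; the target group for the non-archimedean ones; monotonicity.
-/

set_option linter.all false

open Filter Topology Module

namespace Vale.Agent.P092.H944.RA

open Vale.Agent.P092.H213.Rp
open Vale.Agent.P092.H515 (Src Tgt)
open Vale.Agent.P092.H465.Rk (TG SG)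

/-! ### Monotonicity -/

theorem Tgt.mono {G : Type} [Group G] [TopologicalSpace G] {m r : ℕ} (hmr : m ≤ r)
    (h : Tgt G m) : Tgt G r := by
  obtain ⟨J, hJ, gp, w, cl, h1, h2, h3⟩ := h
  exact ⟨J, hJ, gp, w, fun j => Fin.castLE hmr (cl j), h1, fun R => by
    obtain ⟨R', hR⟩ := h2 R
    exact ⟨R', fun i j hij => hR i j (Fin.castLE_injective hmr hij)⟩, h3⟩

theorem TG.mono {G : Type} [Group G] [TopologicalSpace G] {m r : ℕ} (hmr : m ≤ r)
    (h : TG G m) : TG G r := by
  obtain ⟨h1, N, h2, h3⟩ := h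
  exact ⟨h1, N, h2, Tgt.mono hmr h3⟩

theorem Split.mono {k L : Type} [Field k] [LieRing L] [LieAlgebra k L] {m r : ℕ} (hmr : m ≤ r)
    (h : UN.Split k L r) : UN.Split k L m := by
  obtain ⟨x, h1, h2, h3⟩ := h
  exact ⟨fun i => x (Fin.castLE hmr i), h1.comp _ (Fin.castLE_injective hmr), fun i j => h2 _ _,
    fun i => h3 _⟩

theorem Split.le {k L : Type} [Field k] [LieRing L] [LieAlgebra k L] {m r : ℕ}
    (h : UN.Split k L m) (h' : ¬ UN.Split k L (r + 1)) : m ≤ r := by
  by_contra hc
  exact h' (Split.mono (by omega) h)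

/-! ### The source -/

section

variable {k : Type} [NontriviallyNormedField k] [ProperSpace k] [CharZero k] {L : Type}
  [LieRing L] [LieAlgebra k L] {n r : ℕ} {G : Type} [Group G] [TopologicalSpace G]
  {b : Basis (Fin n) k L} {ρ : G →* Module.End k L}

/-- The class `RP` in another basis. -/
theorem rp_basis (h : RP b ρ) (b' : Basis (Fin n) k L) : RP b' ρ :=
  { simple := h.simple, iso := h.iso, emb := H790.Mrg.emb_basis b b' h.emb, lie := h.lie,
    full := h.full, gen := h.gen }

theorem src_rp (h : RP b ρ) {b' : Basis (Fin n) k L} {wt : Fin n → Fin r → ℤ} {E F H : Fin r → L}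
    (hR : Rt b' wt E F H) : Src G r where
  top := H213.Rp.topGroup h.emb.isEmbedding
  lc := H213.Rp.locComp h.emb
  sc := H213.Rp.secCount h.emb.isEmbedding
  t2 := H213.Rp.t2Space h.emb.isEmbedding
  chain := by
    obtain ⟨C, -⟩ := H660.Rp.chn (rp_basis h b') hR
    exact ⟨C⟩

/-- **The source group**: every group of automorphisms of `L` which contains the exponentials. -/
theorem sg_rt (h : H720.Rp.RA b ρ) {b' : Basis (Fin n) k L} {wt : Fin n → Fin r → ℤ}
    {E F H : Fin r → L} (hR : Rt b' wt E F H) : SG G r := by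
  haveI : Module.Finite k L := Module.Finite.of_basis b
  have ht : IsTopologicalGroup G := H213.Rp.topGroup h.emb
  have hr : (H720.Rp.Ng ρ).subtype.range = H720.Rp.Ng ρ := Subgroup.range_subtype _
  refine H465.Rk.sg_of_open ht (H213.Rp.t2Space h.emb) (H720.Rp.Ng ρ).subtype
    h.opn.isOpenEmbedding_subtypeVal ?_ (src_rp h.rp0.rp hR)
  rw [hr]
  exact h.fin'

/-- **The target group** over a non-archimedean local field of characteristic zero. -/
theorem tg_rt [IsUltrametricDist k] (h : H720.Rp.RA b ρ) {b' : Basis (Fin n) k L}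
    {wt : Fin n → Fin r → ℤ} {E F H : Fin r → L} (hR : Rt b' wt E F H) : TG G r := by
  haveI : Module.Finite k L := Module.Finite.of_basis b
  exact ⟨H213.Rp.topGroup h.emb, H720.Rp.Ng ρ, h.fin', H35.Rp.tgt h.rp0.rp hR⟩

theorem rt_ra (h : H720.Rp.RA b ρ) (hs : UN.Split k L r) (hs' : ¬ UN.Split k L (r + 1)) :
    ∃ (b' : Basis (Fin n) k L) (wt : Fin n → Fin r → ℤ) (E F H : Fin r → L),
      Rt b' wt E F H := by
  haveI : Module.Finite k L := Module.Finite.of_basis b
  haveI := h.simple
  obtain ⟨x, hx, hn⟩ := h.iso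
  exact H45.Rk.rt_of_split hx hn (by rw [finrank_eq_card_basis b, Fintype.card_fin]) hs hs'

/-- **(A)** -/
theorem sg_ra (h : H720.Rp.RA b ρ) (hs : UN.Split k L r) (hs' : ¬ UN.Split k L (r + 1)) :
    SG G r := by
  obtain ⟨b', wt, E, F, H, hR⟩ := rt_ra h hs hs'
  exact sg_rt h hR

/-- **(B)** -/
theorem tg_pad [IsUltrametricDist k] (h : H720.Rp.RA b ρ) (hs : UN.Split k L r)
    (hs' : ¬ UN.Split k L (r + 1)) : TG G r := by
  obtain ⟨b', wt, E, F, H, hR⟩ := rt_ra h hs hs'
  exact tg_rt h hR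

end

end Vale.Agent.P092.H944.RA
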