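import Vale.Agent.P092.H155.ReConj
import Vale.Agent.P092.H259.Ad.LieL
import Vale.Agent.P092.UN.StR

/-!
P092, project RANK-ALL (helper944): diagonal elements of the Lie algebra of the self adjoint realisation
are split elements of the simple real Lie algebra.
-/

set_option linter.all false

open Matrix Filter Topology Module

namespace Vale.Agent.P092.H944.RA

open Vale.Agent.P092.H793.Re (Mat SLn RS Lie Dg Sr)
open Vale.Agent.P092.H259.Ad (Mod Ten br adm admL Iso Aut0 rho)
open Vale.Agent.P092.H155.Re (conj lie_conj_iff)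

section alg

variable {L : Type} [LieRing L] [LieAlgebra ℝ L] {n r : ℕ} {c : Ten n} {φ : L ≃ₗ[ℝ] (Fin n → ℝ)}

/-- Diagonal elements of the Lie algebra of the realisation are split elements of `L`. -/
theorem split_diag [FiniteDimensional ℝ L] [LieAlgebra.IsSimple ℝ L] (hφ : Mod φ c) (K : Mat n)
    (hK : Kᵀ * K = 1) (w : Fin r → Fin n → ℝ)
    (hw : ∀ j, Lie (conj K hK (rho c)) (diagonal (w j))) (hli : LinearIndependent ℝ w) :
    UN.Split ℝ L r := by
  have hK' : K * Kᵀ = 1 := mul_eq_one_comm.mp hK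
  have h1 : ∀ j, ∃ x : L, adm c (φ x) = K * diagonal (w j) * Kᵀ := by
    intro j
    obtain ⟨x, hx⟩ := hφ.simp.inner _ (H259.Ad.der_of_lie ((lie_conj_iff K hK _).1 (hw j)))
    exact ⟨φ.symm x, by rw [φ.apply_symm_apply, hx]⟩
  choose x hx using h1
  have hc : ∀ i j, K * diagonal (w i) * Kᵀ * (K * diagonal (w j) * Kᵀ) =
      K * (diagonal (w i) * diagonal (w j)) * Kᵀ := by
    intro i j
    calc K * diagonal (w i) * Kᵀ * (K * diagonal (w j) * Kᵀ)
        = K * (diagonal (w i) * (Kᵀ * K) * diagonal (w j)) * Kᵀ := by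
          simp only [Matrix.mul_assoc]
      _ = _ := by rw [hK, Matrix.mul_one]
  refine ⟨x, ?_, ?_, ?_⟩
  · rw [Fintype.linearIndependent_iff] at hli ⊢
    intro g hg
    refine hli g ?_
    have h3 : ∑ j, g j • (K * diagonal (w j) * Kᵀ) = 0 := by
      have h4 : admL c (φ (∑ j, g j • x j)) = ∑ j, g j • (K * diagonal (w j) * Kᵀ) := by
        rw [map_sum, map_sum]
        refine Finset.sum_congr rfl fun j _ => ?_
        rw [map_smul, map_smul, ← hx]
        rfl
      rw [← h4, hg, map_zero, map_zero]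
    have h7 : diagonal (∑ j, g j • w j) = ∑ j, g j • diagonal (w j) := by
      have h8 := map_sum (Matrix.diagonalLinearMap (Fin n) ℝ ℝ) (fun j => g j • w j) Finset.univ
      rw [show diagonal (∑ j, g j • w j) = Matrix.diagonalLinearMap (Fin n) ℝ ℝ (∑ j, g j • w j)
        from rfl, h8]
      exact Finset.sum_congr rfl fun j _ => map_smul (Matrix.diagonalLinearMap (Fin n) ℝ ℝ) _ _
    have h6 : K * diagonal (∑ j, g j • w j) * Kᵀ = 0 := by
      rw [← h3, h7, Finset.mul_sum, Finset.sum_mul]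
      refine Finset.sum_congr rfl fun j _ => ?_
      rw [Matrix.mul_smul, Matrix.smul_mul]
    have h5 : diagonal (∑ j, g j • w j) = 0 := by
      calc diagonal (∑ j, g j • w j)
          = (Kᵀ * K) * diagonal (∑ j, g j • w j) * (Kᵀ * K) := by
            rw [hK, Matrix.one_mul, Matrix.mul_one]
        _ = Kᵀ * (K * diagonal (∑ j, g j • w j) * Kᵀ) * K := by simp only [Matrix.mul_assoc]
        _ = 0 := by rw [h6, Matrix.mul_zero, Matrix.zero_mul]
    exact diagonal_injective (h5.trans diagonal_zero.symm)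
  · intro i j
    apply φ.injective
    rw [map_zero]
    apply H259.Ad.eq_zero_of_kil hφ.nd
    rw [hφ, H259.Ad.adm_br hφ.isLie, hx, hx, hc, hc, diagonal_mul_diagonal,
      diagonal_mul_diagonal, sub_eq_zero]
    congr 3
    funext a
    exact mul_comm _ _
  · intro j
    let e₀ : (Fin n → ℝ) ≃ₗ[ℝ] (Fin n → ℝ) :=
      { toFun := fun v => Kᵀ *ᵥ v
        invFun := fun v => K *ᵥ v
        map_add' := fun v v' => mulVec_add _ _ _
        map_smul' := fun a v => mulVec_smul _ _ _
        left_inv := fun v => by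
          show K *ᵥ (Kᵀ *ᵥ v) = v
          rw [mulVec_mulVec, hK', one_mulVec]
        right_inv := fun v => by
          show Kᵀ *ᵥ (K *ᵥ v) = v
          rw [mulVec_mulVec, hK, one_mulVec] }
    let e : L ≃ₗ[ℝ] (Fin n → ℝ) := φ.trans e₀
    refine ⟨n, Basis.ofEquivFun e, fun a => ⟨w j a, ?_⟩⟩
    apply e.injective
    have h3 : e (Basis.ofEquivFun e a) = Pi.single a 1 := by
      rw [Basis.coe_ofEquivFun]
      exact e.apply_symm_apply _
    have h4 : ∀ y : L, e ⁅x j, y⁆ = diagonal (w j) *ᵥ e y := by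
      intro y
      show Kᵀ *ᵥ φ ⁅x j, y⁆ = diagonal (w j) *ᵥ (Kᵀ *ᵥ φ y)
      rw [hφ, ← H259.Ad.adm_mulVec, hx, mulVec_mulVec, mulVec_mulVec]
      congr 1
      calc Kᵀ * (K * diagonal (w j) * Kᵀ) = (Kᵀ * K) * diagonal (w j) * Kᵀ := by
            simp only [Matrix.mul_assoc]
        _ = _ := by rw [hK, Matrix.one_mul]
    rw [h4, map_smul, h3]
    funext i
    rw [mulVec_diagonal, Pi.smul_apply, smul_eq_mul]
    rcases eq_or_ne i a with rfl | hia
    · rfl
    · rw [Pi.single_eq_of_ne hia, mul_zero, mul_zero]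

end alg

theorem li_of_dual {n r : ℕ} {p q : Fin r → Fin n} {w : Fin r → Fin n → ℝ}
    (h : ∀ i j, w j (p i) - w j (q i) = if i = j then 1 else 0) : LinearIndependent ℝ w := by
  rw [Fintype.linearIndependent_iff]
  intro g hg i
  have h1 := congrFun hg (p i)
  have h2 := congrFun hg (q i)
  rw [Finset.sum_apply, Pi.zero_apply] at h1 h2
  have h3 : ∑ j, g j * (w j (p i) - w j (q i)) = 0 := by
    simp only [mul_sub, Finset.sum_sub_distrib]
    simp only [Pi.smul_apply, smul_eq_mul] at h1 h2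
    rw [h1, h2, sub_zero]
  simp only [h, mul_ite, mul_one, mul_zero, Finset.sum_ite_eq, Finset.mem_univ, if_true] at h3
  exact h3

end Vale.Agent.P092.H944.RA
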