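import Vale.Agent.P092.H944.RA1
import Vale.Agent.P092.H944.RA2
import Vale.Agent.P092.H944.RA3
import Vale.Agent.P092.H465.LieR

/-!
P092, project RANK-ALL (helper944): the target group over `ℝ`: the number of simple roots of the self
adjoint realisation is at most the rank `UN.Split ℝ L`.
-/

set_option linter.all false

open Matrix Filter Topology Module

namespace Vale.Agent.P092.H944.RA

open Vale.Agent.P092.H793.Re (Mat SLn RS Lie Dg Sr)
open Vale.Agent.P092.H259.Ad (Mod Ten br adm admL Iso Aut0 rho)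
open Vale.Agent.P092.H155.Re (conj lie_conj_iff)
open Vale.Agent.P092.H213.Rp (Nil eu ex)
open Vale.Agent.P092.H465.LieR (adm_pow_zero ad_pow_zero mat_ext exp_adm)
open Vale.Agent.P092.H515 (Src Tgt)
open Vale.Agent.P092.H465.Rk (TG SG)

theorem ra35 {k : Type} [NontriviallyNormedField k] {L : Type} [LieRing L] [LieAlgebra k L]
    {n : ℕ} {G : Type} [Group G] [TopologicalSpace G] {b : Basis (Fin n) k L}
    {ρ : G →* Module.End k L} (h : H720.Rp.RA b ρ) : H35.Rp.RA b ρ :=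
  { simple := h.simple, iso := h.iso, emb := h.emb, lie := h.lie, full := h.full }

/-- **The target group over `ℝ`.** -/
theorem tg_real {L : Type} [LieRing L] [LieAlgebra ℝ L] {n : ℕ} {G : Type} [Group G]
    [TopologicalSpace G] {b : Basis (Fin n) ℝ L} {ρ : G →* Module.End ℝ L}
    (hr0 : H720.Rp.RA b ρ) : ∃ m, UN.Split ℝ L m ∧ TG G m := by
  have hr : H35.Rp.RA b ρ := ra35 hr0
  haveI := hr.simple
  haveI : Module.Finite ℝ L := Module.Finite.of_basis b
  haveI : FiniteDimensional ℝ L := Module.Finite.of_basis b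
  obtain ⟨c, hc⟩ : ∃ c : Ten n, c = fun i j l => b.equivFun ⁅b i, b j⁆ l := ⟨_, rfl⟩
  have hm : Mod b.equivFun c := hc ▸ H259.Ad.mod_basis b
  obtain ⟨g, c₀, hg, hi, -, -, hmin⟩ := H899.Ad.mini c hm.simp.lie hm.simp.nd
  have hu : IsUnit g.det := by
    rw [isUnit_iff_ne_zero]
    intro h0
    rw [h0, abs_zero] at hg
    exact zero_ne_one hg
  have h1 : g * g⁻¹ = 1 := Matrix.mul_nonsing_inv g hu
  have h2 : g⁻¹ * g = 1 := Matrix.nonsing_inv_mul g hu
  obtain ⟨φ, hφ, hφx⟩ := hm.iso hi h1 h2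
  obtain ⟨γ, hγ⟩ : ∃ γ : G →* Mat n, ∀ a, γ a = g * LinearMap.toMatrix b b (ρ a) * g⁻¹ :=
    ⟨{ toFun := fun a => g * LinearMap.toMatrix b b (ρ a) * g⁻¹
       map_one' := by
         rw [map_one]
         show g * LinearMap.toMatrix b b LinearMap.id * g⁻¹ = 1
         rw [LinearMap.toMatrix_id, mul_one, h1]
       map_mul' := fun x y => by
         rw [map_mul]
         show g * LinearMap.toMatrix b b (ρ x ∘ₗ ρ y) * g⁻¹ = _
         rw [LinearMap.toMatrix_comp b b b]
         calc g * (LinearMap.toMatrix b b (ρ x) * LinearMap.toMatrix b b (ρ y)) * g⁻¹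
             = g * LinearMap.toMatrix b b (ρ x) * 1 * LinearMap.toMatrix b b (ρ y) * g⁻¹ := by
               simp only [mul_assoc, one_mul]
           _ = g * LinearMap.toMatrix b b (ρ x) * (g⁻¹ * g) *
               LinearMap.toMatrix b b (ρ y) * g⁻¹ := by rw [h2]
           _ = _ := by simp only [mul_assoc] }, fun a => rfl⟩
  have hγv : ∀ a x, γ a *ᵥ φ x = φ (ρ a x) := by
    intro a x
    rw [hγ, hφx, hφx, mulVec_mulVec, mul_assoc, h2, mul_one, ← mulVec_mulVec]
    congr 1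
    exact LinearMap.toMatrix_mulVec_repr b b (ρ a) x
  have hemb : IsEmbedding γ := by
    have h3 : IsEmbedding fun x : Mat n => g * x * g⁻¹ := by
      refine IsEmbedding.of_leftInverse (f := fun x : Mat n => g⁻¹ * x * g) ?_ ?_ ?_
      · intro x
        show g⁻¹ * (g * x * g⁻¹) * g = x
        calc g⁻¹ * (g * x * g⁻¹) * g = (g⁻¹ * g) * x * (g⁻¹ * g) := by simp only [mul_assoc]
          _ = x := by rw [h2, one_mul, mul_one]
      · exact (continuous_const.matrix_mul continuous_id).matrix_mul continuous_const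
      · exact (continuous_const.matrix_mul continuous_id).matrix_mul continuous_const
    have e : (γ : G → Mat n) = (fun x : Mat n => g * x * g⁻¹) ∘
        fun a => LinearMap.toMatrix b b (ρ a) := funext hγ
    rw [e]
    exact h3.comp hr.emb
  have hiso : ∀ a, Iso (γ a) c₀ c₀ := by
    intro a x y
    rw [hφ.br_eq x y, hγv, hr.lie, hφ, ← hγv, ← hγv, φ.apply_symm_apply, φ.apply_symm_apply]
  obtain ⟨x₀, hx₀, hn₀⟩ := hr.iso
  have hx₀' : φ x₀ ≠ 0 := fun h => hx₀ (φ.injective (h.trans (map_zero φ).symm))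
  have hnil : IsNilpotent (adm c₀ (φ x₀)) := by
    obtain ⟨k, hk⟩ := hn₀
    exact ⟨k, adm_pow_zero hφ hk⟩
  have hf : ∀ x, IsNilpotent (adm c₀ x) → ∃ a, γ a = NormedSpace.exp (adm c₀ x) := by
    rintro x ⟨k, hk⟩
    obtain ⟨x, rfl⟩ := φ.surjective x
    have hx : Nil ℝ x := ⟨k, ad_pow_zero hφ hk⟩
    obtain ⟨a, ha⟩ := hr.full x hx
    refine ⟨a, mat_ext (φ := φ) fun y => ?_⟩
    rw [hγv, ha, exp_adm hφ hx]
  obtain ⟨hRS, M, hM1, hM2, hM3, ⟨e⟩⟩ :=
    H338.Ov.core H624.Ad.simB hφ.simp hmin hx₀' hnil hemb hiso hf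
  obtain ⟨K, hK, h, hρ', hD⟩ := exDgK (rho c₀) hRS
  obtain ⟨r, p, q, w, E, hS⟩ := H793.Re.exSr _ h hρ' hD
  have hT : Tgt (Aut0 c₀) r := H259.Re.tgtB _ h p q w E hρ' hD hS
  refine ⟨r, split_diag hφ K hK w hS.wl (li_of_dual hS.dual), H35.Rp.topGroup hemb, M, hM2,
    hT.comap e.toMulEquiv.toMonoidHom fun C hC => ⟨e.symm '' C, hC.image e.symm.continuous,
      fun x hx => ⟨e x, hx, e.symm_apply_apply x⟩⟩⟩

end Vale.Agent.P092.H944.RA
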