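import Vale.Agent.P092.H944.DBr

/-!
P092 (helper944), one simple real factor, block [D-I1G]: the count of near-wall elements in the
letters of the norms, and its form for unital `*`-homomorphisms of `C(Y, ℂ)`.
-/

namespace Vale.Agent.P092.H944

open Matrix

section count

theorem IsSVD.nq_vec_le {n : ℕ} {k κ κ' : Matrix (Fin n) (Fin n) ℝ} {a : Fin n → ℝ}
    (h : IsSVD k κ a κ') {τ : ℝ} (z : Fin n) (hτ : ∀ i, i ≠ z → a i ^ 2 ≤ τ) (q : Fin n → ℝ)
    (hτ0 : 0 ≤ τ) : nq (q ᵥ* k) ≤ a z ^ 2 * (q ᵥ* κ) z ^ 2 + τ * nq q := by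
  rw [h.nq_vec, ← nq_vecMul h.o1' q, nq, Finset.mul_sum, ← Finset.add_sum_erase _ _
    (Finset.mem_univ z), ← Finset.add_sum_erase Finset.univ
    (fun i => τ * (q ᵥ* κ) i ^ 2) (Finset.mem_univ z)]
  have h1 : ∑ i ∈ Finset.univ.erase z, a i ^ 2 * (q ᵥ* κ) i ^ 2 ≤
      ∑ i ∈ Finset.univ.erase z, τ * (q ᵥ* κ) i ^ 2 :=
    Finset.sum_le_sum fun i hi => mul_le_mul_of_nonneg_right
      (hτ i (Finset.mem_erase.mp hi).1) (sq_nonneg _)
  have h2 : 0 ≤ τ * (q ᵥ* κ) z ^ 2 := by positivity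
  linarith

/-- For elements with a large first gap the condition in terms of norms gives `Away`. -/
theorem away_of {k : Matrix (Fin 3) (Fin 3) ℝ} (hk : |k.det| = 1) {c : ℝ} {p : Fin 3 → ℝ}
    (hg : 2 ≤ c * Real.exp (gap 0 k))
    (h : c * hs k * nq (p ᵥ* k⁻¹) ≤ nq p) : Away (c / 2) p k := by
  have h0 := abs_ne hk
  have u : IsUnit k.det := isUnit_iff_ne_zero.mpr h0
  have S := isSVD h0
  have hc : 0 < c := by
    rcases lt_or_ge 0 c with h1 | h1
    · exact h1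
    · exact absurd hg (not_le.mpr (by nlinarith [Real.exp_pos (gap 0 k)]))
  refine ⟨0, rfl, ?_⟩
  have hq : (p ᵥ* k⁻¹) ᵥ* k = p := by rw [vecMul_vecMul, nonsing_inv_mul _ u, vecMul_one]
  set q := p ᵥ* k⁻¹ with hqd
  have p0 := S.pos 0
  have p1 := S.pos 1
  have e12 : sv k 2 ≤ sv k 1 := S.anti (by decide)
  have e1 := S.nq_vec_le 0 (τ := sv k 1 ^ 2) (by
    intro i hi
    fin_cases i
    · exact absurd rfl hi
    · exact le_rfl
    · exact pow_le_pow_left₀ (S.pos 2).le e12 2) q (sq_nonneg _)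
  rw [hq] at e1
  have e2 : sv k 0 ^ 2 ≤ hs k := by
    rw [S.hs_eq]
    exact Finset.single_le_sum (f := fun i => sv k i ^ 2) (fun _ _ => sq_nonneg _)
      (Finset.mem_univ 0)
  have e3 : sv k 1 ^ 2 * 2 ≤ c * sv k 0 ^ 2 := by
    have : Real.exp (gap 0 k) = sv k 0 ^ 2 / sv k 1 ^ 2 := by
      rw [gap, if_pos (by norm_num), mul_sub, Real.exp_sub]
      have ex : ∀ i : Fin 3, Real.exp (2 * la k i) = sv k i ^ 2 := by
        intro i
        rw [← exp_la h0 i, ← Real.exp_nat_mul]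
        norm_num
      have a := ex 0
      have b := ex 1
      simp only [Fin.val_zero, Fin.val_one] at a b
      rw [a, b]
    rw [this, mul_div_assoc', le_div_iff₀ (by positivity)] at hg
    linarith
  have hq0 : 0 ≤ nq q := nq_nonneg q
  have e4 : c * sv k 0 ^ 2 * nq q ≤ c * hs k * nq q :=
    mul_le_mul_of_nonneg_right (mul_le_mul_of_nonneg_left e2 hc.le) hq0
  have e5 : sv k 1 ^ 2 * 2 * nq q ≤ c * sv k 0 ^ 2 * nq q :=
    mul_le_mul_of_nonneg_right e3 hq0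
  have e6 : sv k 0 ^ 2 * (c / 2 * nq q) ≤ sv k 0 ^ 2 * (q ᵥ* kA k) 0 ^ 2 := by nlinarith
  exact le_of_mul_le_mul_left e6 (by positivity)

variable {Γ : Type} [Group Γ] {m : Γ → Matrix (Fin 3) (Fin 3) ℝ}

/-- **The count, size measured by the first gap.** -/
theorem Emb.count_gap (h : Emb m) {R c : ℝ} (hR : 0 ≤ R) (hc : 0 < c) :
    ∃ N : ℕ, ∀ J : ℕ, ∀ p : Fin 3 → ℝ, p ≠ 0 → ∀ F : Finset Γ,
      (∀ g ∈ F, gap 0 (m g) ≤ J ∧ gap 1 (m g) ≤ R ∧
        c * hs (m g) * nq (p ᵥ* (m g)⁻¹) ≤ nq p) → F.card ≤ N * (J + 1) := by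
  classical
  obtain ⟨N, hN⟩ := h.nw_mult_le hR (half_pos hc)
  set R1 := max R (Real.log (2 / c)) with hR1
  have hfin := h.gap_finite R1
  refine ⟨N + hfin.toFinset.card, fun J p hp F hF => ?_⟩
  rw [← Finset.card_filter_add_card_filter_not (s := F)
    (fun g => 2 ≤ c * Real.exp (gap 0 (m g)))]
  have h1 : (F.filter fun g => 2 ≤ c * Real.exp (gap 0 (m g))).card ≤ N * (J + 1) := by
    refine hN J p hp _ fun g hg => ?_
    rw [Finset.mem_filter] at hg
    obtain ⟨a1, a2, a3⟩ := hF g hg.1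
    refine ⟨a1, fun j hj hj2 => ?_, away_of (h.abs_det g) hg.2 a3⟩
    have : j = 1 := by omega
    rw [this]
    exact a2
  have h2 : (F.filter fun g => ¬ 2 ≤ c * Real.exp (gap 0 (m g))).card ≤
      hfin.toFinset.card := by
    refine Finset.card_le_card fun g hg => ?_
    rw [Finset.mem_filter, not_le] at hg
    obtain ⟨a1, a2, a3⟩ := hF g hg.1
    rw [Set.Finite.mem_toFinset, Set.mem_ofPred_eq]
    intro j hj
    have hj2 : j = 0 ∨ j = 1 := by omega
    rcases hj2 with rfl | rfl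
    · refine le_trans ?_ (le_max_right _ _)
      rw [Real.le_log_iff_exp_le (by positivity), le_div_iff₀ hc]
      linarith [hg.2]
    · exact a2.trans (le_max_left _ _)
  calc _ ≤ N * (J + 1) + hfin.toFinset.card := Nat.add_le_add h1 h2
    _ ≤ N * (J + 1) + hfin.toFinset.card * (J + 1) :=
        Nat.add_le_add_left (Nat.le_mul_of_pos_right _ (Nat.succ_pos J)) _
    _ = _ := by ring

theorem one_le_hs {k : Matrix (Fin 3) (Fin 3) ℝ} (hk : |k.det| = 1) : 1 ≤ hs k := by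
  obtain ⟨x, y, z, hz, hzy, hyx, hp, eA, -, -, -, -⟩ := three hk
  have hy : 0 < y := hz.trans_le hzy
  have hx : 0 < x := hy.trans_le hyx
  rw [eA]
  by_contra hcon
  have hx1 : x < 1 := by linarith
  have : x * y * z < 1 := by
    have h1 : x * y < 1 := by nlinarith
    nlinarith [mul_pos hx hy]
  linarith

theorem abs_det_inv {k : Matrix (Fin 3) (Fin 3) ℝ} (hk : |k.det| = 1) : |k⁻¹.det| = 1 := by
  rw [det_nonsing_inv, Ring.inverse_eq_inv', abs_inv, hk, inv_one]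

/-- **The count in the letters of the norms** `‖k‖² = hs k`, `‖k⁻¹‖² = hs k⁻¹`. -/
theorem Emb.count_hs (h : Emb m) {R c : ℝ} (hc : 0 < c) :
    ∃ N : ℕ, ∀ J : ℕ, ∀ p : Fin 3 → ℝ, p ≠ 0 → ∀ F : Finset Γ,
      (∀ g ∈ F, hs (m g) ≤ Real.exp J ∧ hs (m g)⁻¹ ^ 2 ≤ R * hs (m g) ∧
        c * hs (m g) * nq (p ᵥ* (m g)⁻¹) ≤ nq p) → F.card ≤ N * (J + 1) := by
  obtain ⟨N, hN⟩ := h.count_gap (R := |Real.log (3 * R)|) (abs_nonneg _) hc
  refine ⟨N * 3, fun J p hp F hF => ?_⟩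
  have := hN (2 * J + 2) p hp F fun g hg => ?_
  · refine this.trans ?_
    nlinarith [Nat.zero_le (N * J)]
  · obtain ⟨a1, a2, a3⟩ := hF g hg
    have hd := h.abs_det g
    have A1 := one_le_hs hd
    have B1 := one_le_hs (abs_det_inv hd)
    refine ⟨?_, ?_, a3⟩
    · have e1 := gap_zero_le hd
      have e2 : Real.exp (gap 0 (m g)) ≤ 3 * hs (m g) ^ 2 := by
        refine le_trans ?_ e1
        exact le_mul_of_one_le_right (Real.exp_pos _).le B1
      have e3 : 3 * hs (m g) ^ 2 ≤ Real.exp ((2 * J + 2 : ℕ) : ℝ) := by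
        have f1 : hs (m g) ^ 2 ≤ Real.exp J ^ 2 := pow_le_pow_left₀ (by linarith) a1 2
        have f2 : (3 : ℝ) ≤ Real.exp 2 := by
          have := Real.add_one_le_exp (2 : ℝ)
          linarith
        push_cast
        rw [Real.exp_add]
        have f3 : Real.exp J ^ 2 = Real.exp (2 * J) := by
          rw [← Real.exp_nat_mul]
          norm_num
        rw [← f3]
        nlinarith [Real.exp_pos (J : ℝ), sq_nonneg (Real.exp (J : ℝ))]
      exact Real.exp_le_exp.mp (e2.trans e3)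
    · have e1 := gap_one_le hd
      have e2 : Real.exp (gap 1 (m g)) * hs (m g) ≤ 3 * R * hs (m g) := by linarith
      have e3 : Real.exp (gap 1 (m g)) ≤ 3 * R := le_of_mul_le_mul_right e2 (by linarith)
      have e4 : gap 1 (m g) ≤ Real.log (3 * R) :=
        (Real.le_log_iff_exp_le (lt_of_lt_of_le (Real.exp_pos _) e3)).mpr e3
      exact e4.trans (le_abs_self _)

open scoped LinearAlgebra.Projectivization in
/-- **The pointwise count for functions on the space of lines** `ℙ ℝ (Fin 3 → ℝ)` (functionals). -/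
theorem Emb.pointwise (h : Emb m) {R c : ℝ} (hc : 0 < c) :
    ∃ N : ℕ, ∀ (J : ℕ) (S : Finset Γ) (φ : Γ → ℙ ℝ (Fin 3 → ℝ) → ℂ), (∀ k y, ‖φ k y‖ ≤ 1) →
      (∀ k ∈ S, hs (m k) ≤ Real.exp J ∧ hs (m k)⁻¹ ^ 2 ≤ R * hs (m k) ∧
        ∀ (p : Fin 3 → ℝ) (hp : p ≠ 0), φ k (Projectivization.mk ℝ p hp) ≠ 0 →
          c * hs (m k) * nq (p ᵥ* (m k)⁻¹) ≤ nq p) →
      ∀ y, ∑ k ∈ S, ‖φ k y‖ ^ 2 ≤ N * (J + 1) := by
  classical
  obtain ⟨N, hN⟩ := h.count_hs (R := R) hc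
  refine ⟨N, fun J S φ h1 hS y => ?_⟩
  have e : Projectivization.mk ℝ y.rep y.rep_nonzero = y := y.mk_rep
  have hcard : (S.filter fun k => φ k y ≠ 0).card ≤ N * (J + 1) := by
    refine hN J y.rep y.rep_nonzero _ fun k hk => ?_
    rw [Finset.mem_filter] at hk
    obtain ⟨a1, a2, a3⟩ := hS k hk.1
    exact ⟨a1, a2, a3 y.rep y.rep_nonzero (by rw [e]; exact hk.2)⟩
  calc ∑ k ∈ S, ‖φ k y‖ ^ 2 = ∑ k ∈ S.filter (fun k => φ k y ≠ 0), ‖φ k y‖ ^ 2 := by
        refine (Finset.sum_filter_of_ne (p := fun k => φ k y ≠ 0) fun k _ hk h0 => hk ?_).symm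
        rw [h0, norm_zero]
        norm_num
    _ ≤ ∑ _k ∈ S.filter (fun k => φ k y ≠ 0), (1 : ℝ) := by
        refine Finset.sum_le_sum fun k _ => ?_
        have := h1 k y
        nlinarith [norm_nonneg (φ k y)]
    _ = ((S.filter fun k => φ k y ≠ 0).card : ℝ) := by simp
    _ ≤ N * (J + 1) := by exact_mod_cast hcard

end count

section hom

variable {Y : Type*} [TopologicalSpace Y]
  {E : Type*} [NormedAddCommGroup E] [InnerProductSpace ℂ E] [CompleteSpace E]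

/-- **Bounded multiplicity gives a bounded sum of squares** for a unital `*`-homomorphism. -/
theorem sum_hom_le (L : C(Y, ℂ) →⋆ₐ[ℂ] (E →L[ℂ] E)) {ι : Type*} (S : Finset ι)
    (φ : ι → C(Y, ℂ)) {N : ℝ} (hN : ∀ y, ∑ k ∈ S, ‖φ k y‖ ^ 2 ≤ N) (ξ : E) :
    ∑ k ∈ S, ‖L (φ k) ξ‖ ^ 2 ≤ N * ‖ξ‖ ^ 2 := by
  have hcont : Continuous fun y => (Real.sqrt (N - ∑ k ∈ S, ‖φ k y‖ ^ 2) : ℂ) := by
    refine Complex.continuous_ofReal.comp (Real.continuous_sqrt.comp ?_)
    exact continuous_const.sub (continuous_finsetSum _ fun k _ => ((φ k).continuous.norm.pow 2))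
  set g : C(Y, ℂ) := ⟨_, hcont⟩ with hg
  have key : (N : ℂ) • (1 : C(Y, ℂ)) = ∑ k ∈ S, star (φ k) * φ k + star g * g := by
    ext y
    simp only [ContinuousMap.smul_apply, ContinuousMap.one_apply, smul_eq_mul, mul_one,
      ContinuousMap.add_apply, ContinuousMap.coe_sum, Finset.sum_apply, ContinuousMap.mul_apply, ContinuousMap.star_apply,
      RCLike.star_def, RCLike.conj_mul, hg, ContinuousMap.coe_mk]
    have h0 : 0 ≤ N - ∑ k ∈ S, ‖φ k y‖ ^ 2 := sub_nonneg.mpr (hN y)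
    rw [Complex.norm_real, Real.norm_of_nonneg (Real.sqrt_nonneg _)]
    norm_cast
    rw [Real.sq_sqrt h0, add_sub_cancel]
    rfl
  have hL : (N : ℂ) • (1 : E →L[ℂ] E) = ∑ k ∈ S, star (L (φ k)) * L (φ k) + star (L g) * L g := by
    have := congrArg L key
    rw [map_smul, map_one, map_add, map_sum, map_mul, map_star] at this
    rw [this]
    congr 1
    exact Finset.sum_congr rfl fun k _ => by rw [map_mul, map_star]
  have hsq : ∀ T : E →L[ℂ] E, inner ℂ ((star T * T) ξ) ξ = ((‖T ξ‖ ^ 2 : ℝ) : ℂ) := by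
    intro T
    rw [mul_apply_eq_comp, ContinuousLinearMap.star_eq_adjoint,
      ContinuousLinearMap.adjoint_inner_left, inner_self_eq_norm_sq_to_K]
    norm_cast
  have hξ : inner ℂ ξ ξ = ((‖ξ‖ ^ 2 : ℝ) : ℂ) := by
    rw [inner_self_eq_norm_sq_to_K]
    norm_cast
  have h1 := congrArg (fun T : E →L[ℂ] E => inner ℂ (T ξ) ξ) hL
  simp only [_root_.smul_apply, one_apply_eq_self, _root_.add_apply, inner_add_left,
    _root_.sum_apply, sum_inner, hsq, inner_smul_left, Complex.conj_ofReal, hξ] at h1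
  have h2 : N * ‖ξ‖ ^ 2 = ∑ k ∈ S, ‖L (φ k) ξ‖ ^ 2 + ‖L g ξ‖ ^ 2 := by
    exact_mod_cast h1
  rw [h2]
  have : 0 ≤ ‖L g ξ‖ ^ 2 := sq_nonneg _
  linarith

end hom

end Vale.Agent.P092.H944
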