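import Vale.Agent.P092.SD.Defs
import Vale.Agent.P092.H944.DCnt

/-!
P092 (helper944), TEAM D, block [D-I1G] in the letters of `SD.Defs`.
-/

open scoped InnerProductSpace ENNReal LinearAlgebra.Projectivization
open Filter Topology ContinuousLinearMap Matrix

namespace Vale.Agent.P092.H944

open Vale.Agent.P092.SD Vale.Agent.P092.H820 Vale.Agent.P092.RC

/-! ### Compactness -/

/-- The unit sphere. -/
abbrev Sph : Type := {v : Fin 3 → ℝ // nq v = 1}

theorem continuous_nq : Continuous (nq : (Fin 3 → ℝ) → ℝ) := by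
  unfold nq
  exact continuous_finsetSum _ fun i _ => (continuous_apply i).pow 2

instance : CompactSpace Sph := by
  have hc : IsClosed {v : Fin 3 → ℝ | nq v = 1} := isClosed_eq continuous_nq continuous_const
  have hb : Bornology.IsBounded {v : Fin 3 → ℝ | nq v = 1} := by
    refine (Metric.isBounded_closedBall (x := (0 : Fin 3 → ℝ)) (r := 1)).subset fun v hv => ?_
    rw [mem_closedBall_zero_iff, pi_norm_le_iff_of_nonneg zero_le_one]
    intro i
    have h1 : v i ^ 2 ≤ 1 := (sq_le_nq v i).trans (le_of_eq hv)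
    rw [Real.norm_eq_abs]
    exact abs_le_one_iff_mul_self_le_one.mpr (by nlinarith)
  exact isCompact_iff_compactSpace.mp (Metric.isCompact_of_isClosed_isBounded hc hb)

theorem sph_ne (v : Sph) : v.1 ≠ 0 := by
  intro h
  have h1 := v.2
  rw [h] at h1
  simp [nq] at h1

/-- The projection of the sphere to the plane. -/
noncomputable def pS (v : Sph) : PP ℝ := pj ℝ (Fin 3) ⟨v.1, sph_ne v⟩

theorem continuous_pS : Continuous pS :=
  pj_continuous.comp (continuous_subtype_val.subtype_mk _)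

theorem nq_smul (t : ℝ) (v : Fin 3 → ℝ) : nq (t • v) = t ^ 2 * nq v := by
  unfold nq
  simp only [Pi.smul_apply, smul_eq_mul, mul_pow, Finset.mul_sum]

/-- Normalisation. -/
theorem exists_norm (v : Fin 3 → ℝ) (hv : v ≠ 0) :
    ∃ (t : ℝ) (v0 : Sph), t ≠ 0 ∧ v = t • v0.1 ∧ t ^ 2 = nq v ∧ pS v0 = pt ℝ v hv := by
  have h0 := nq_pos hv
  have hs : Real.sqrt (nq v) ≠ 0 := (Real.sqrt_pos.mpr h0).ne'
  have e1 : nq ((Real.sqrt (nq v))⁻¹ • v) = 1 := by
    rw [nq_smul, inv_pow, Real.sq_sqrt h0.le]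
    exact inv_mul_cancel₀ h0.ne'
  refine ⟨Real.sqrt (nq v), ⟨(Real.sqrt (nq v))⁻¹ • v, e1⟩, hs, ?_, Real.sq_sqrt h0.le, ?_⟩
  · rw [smul_smul, mul_inv_cancel₀ hs, one_smul]
  · unfold pS pt
    refine (Projectivization.mk_eq_mk_iff _ _ _ _ _).mpr ?_
    exact ⟨Units.mk0 _ (inv_ne_zero hs), rfl⟩

/-- Closed sets without incident pairs are at positive angle. -/
theorem exists_angle {A B : Set (PP ℝ)} (hA : IsClosed A) (hB : IsClosed B) (h : NInc A B) :
    ∃ c : ℝ, 0 < c ∧ ∀ (v w : Fin 3 → ℝ) (hv : v ≠ 0) (hw : w ≠ 0), pt ℝ v hv ∈ A →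
      pt ℝ w hw ∈ B → c * nq v * nq w ≤ (w ⬝ᵥ v) ^ 2 := by
  set K : Set (Sph × Sph) := {p | pS p.1 ∈ A ∧ pS p.2 ∈ B} with hK
  have hKc : IsCompact K := by
    refine IsClosed.isCompact ?_
    exact (hA.preimage (continuous_pS.comp continuous_fst)).inter
      (hB.preimage (continuous_pS.comp continuous_snd))
  have hcont : Continuous fun p : Sph × Sph => (p.2.1 ⬝ᵥ p.1.1) ^ 2 :=
    ((continuous_subtype_val.comp continuous_snd).dotProduct
      (continuous_subtype_val.comp continuous_fst)).pow 2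
  have hpos : ∀ p ∈ K, 0 < (p.2.1 ⬝ᵥ p.1.1) ^ 2 := by
    intro p hp
    have h1 := h _ hp.1 _ hp.2
    have h2 : p.1.1 ⬝ᵥ p.2.1 ≠ 0 := fun e => h1 ((orthogonal_iff _ _).mpr e)
    rw [dotProduct_comm] at h2
    positivity
  have hmin : ∃ c : ℝ, 0 < c ∧ ∀ p ∈ K, c ≤ (p.2.1 ⬝ᵥ p.1.1) ^ 2 := by
    rcases K.eq_empty_or_nonempty with he | hne
    · refine ⟨1, one_pos, fun p hp => ?_⟩
      rw [he] at hp
      exact absurd hp (Set.notMem_empty p)
    · obtain ⟨p0, hp0, hm⟩ := hKc.exists_isMinOn hne hcont.continuousOn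
      exact ⟨_, hpos p0 hp0, fun p hp => hm hp⟩
  obtain ⟨c, hc, hm⟩ := hmin
  refine ⟨c, hc, fun v w hv hw hvA hwB => ?_⟩
  obtain ⟨t, v0, -, ev, et, pv⟩ := exists_norm v hv
  obtain ⟨s, w0, -, ew, es, pw⟩ := exists_norm w hw
  have h1 := hm (v0, w0) ⟨by rw [pv]; exact hvA, by rw [pw]; exact hwB⟩
  have h2 : (w ⬝ᵥ v) ^ 2 = nq v * nq w * (w0.1 ⬝ᵥ v0.1) ^ 2 := by
    rw [← et, ← es]
    conv_lhs => rw [ev, ew]
    rw [smul_dotProduct, dotProduct_smul, smul_eq_mul, smul_eq_mul]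
    ring
  rw [h2]
  have h3 : 0 ≤ nq v * nq w := mul_nonneg (nq_nonneg v) (nq_nonneg w)
  calc c * nq v * nq w = nq v * nq w * c := by ring
    _ ≤ _ := mul_le_mul_of_nonneg_left h1 h3

/-- An open neighbourhood whose closure keeps the non-incidence. -/
theorem exists_nhd {P B : Set (PP ℝ)} (hP : IsClosed P) (hB : IsClosed B) (h : NInc P B) :
    ∃ A : Set (PP ℝ), IsOpen A ∧ P ⊆ A ∧ NInc (closure A) B := by
  have hc : IsClosed (Prod.fst '' (inc3 (k := ℝ) ∩ (Set.univ ×ˢ B))) := by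
    have : IsCompact (inc3 (k := ℝ) ∩ (Set.univ ×ˢ B)) :=
      (inc3_closed.inter (isClosed_univ.prod hB)).isCompact
    exact (this.image continuous_fst).isClosed
  obtain ⟨A, h1, h2, h3⟩ := normal_exists_closure_subset hP hc.isOpen_compl (by
    rintro x hx ⟨⟨y, l⟩, ⟨hi, -, hl⟩, rfl⟩
    exact h y hx l hl hi)
  exact ⟨A, h1, h2, fun x hx l hl hi => h3 hx ⟨(x, l), ⟨hi, Set.mem_univ _, hl⟩, rfl⟩⟩

/-! ### Norms -/

theorem abs_le_nm (g : G3 ℝ) (i j : Fin 3) : |g.1 i j| ≤ nm g := by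
  unfold nm
  rw [← Real.norm_eq_abs]
  exact (norm_le_pi_norm (fun j => g.1 i j) j).trans
    (norm_le_pi_norm (fun i j => g.1 i j : Fin 3 → Fin 3 → ℝ) i)

theorem nm_nonneg (g : G3 ℝ) : 0 ≤ nm g := norm_nonneg _

theorem hs_le_nm (g : G3 ℝ) : hs g.1 ≤ 9 * nm g ^ 2 := by
  unfold hs
  have h1 : ∀ i j : Fin 3, g.1 i j ^ 2 ≤ nm g ^ 2 := fun i j => by
    rw [← sq_abs]
    exact pow_le_pow_left₀ (abs_nonneg _) (abs_le_nm g i j) 2
  calc ∑ i, ∑ j, g.1 i j ^ 2 ≤ ∑ _i : Fin 3, ∑ _j : Fin 3, nm g ^ 2 :=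
        Finset.sum_le_sum fun i _ => Finset.sum_le_sum fun j _ => h1 i j
    _ = 9 * nm g ^ 2 := by
        simp only [Finset.sum_const, Finset.card_univ, Fintype.card_fin, nsmul_eq_mul]
        push_cast
        ring

theorem nm_sq_le_hs (g : G3 ℝ) : nm g ^ 2 ≤ hs g.1 := by
  have h0 : 0 ≤ hs g.1 := hs_nonneg _
  have : nm g ≤ Real.sqrt (hs g.1) := by
    unfold nm
    rw [pi_norm_le_iff_of_nonneg (Real.sqrt_nonneg _)]
    intro i
    rw [pi_norm_le_iff_of_nonneg (Real.sqrt_nonneg _)]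
    intro j
    rw [Real.norm_eq_abs]
    exact abs_entry_le g.1 i j
  calc nm g ^ 2 ≤ Real.sqrt (hs g.1) ^ 2 := pow_le_pow_left₀ (nm_nonneg g) this 2
    _ = _ := Real.sq_sqrt h0

theorem abs_det_one (g : G3 ℝ) : |g.1.det| = 1 := by rw [g.2, abs_one]

theorem nm_pos (g : G3 ℝ) : 0 < nm g := by
  have h1 := one_le_hs (abs_det_one g)
  have h2 := hs_le_nm g
  rcases (nm_nonneg g).lt_or_eq with h | h
  · exact h
  · rw [← h] at h2
    norm_num at h2
    linarith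

theorem coe_inv_eq (g : G3 ℝ) : (g⁻¹).1 = (g.1)⁻¹ := by
  refine (inv_eq_right_inv ?_).symm
  rw [← Matrix.SpecialLinearGroup.coe_mul, mul_inv_cancel, Matrix.SpecialLinearGroup.coe_one]

/-- The matrix is not small on functionals at positive angle to the attracting point. -/
theorem att_angle {c T : ℝ} (hc : 0 < c) (hT : 2 + 48 / c ≤ T) {A : Set (PP ℝ)} {k : G3 ℝ}
    (h : Att T A k) {w : Fin 3 → ℝ}
    (hw : ∀ (v : Fin 3 → ℝ) (hv : v ≠ 0), pt ℝ v hv ∈ A → c * nq v * nq w ≤ (w ⬝ᵥ v) ^ 2) :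
    c / 144 * hs k.1 * nq w ≤ nq (w ᵥ* k.1) := by
  obtain ⟨v, φ, hv, hvA, hE⟩ := h
  have hM := nm_pos k
  set M := nm k with hMd
  have h48 : 0 < 48 / c := by positivity
  have hT2 : 2 ≤ T := by linarith
  have hT0 : 0 < T := by linarith
  have hMT : M / T ≤ M / 2 := div_le_div_of_nonneg_left hM.le two_pos hT2
  -- a large entry
  obtain ⟨i, j, hij⟩ : ∃ i j, M / 2 ≤ |v i * φ j| := by
    by_contra hcon
    push Not at hcon
    have : M < M := by
      conv_lhs => rw [hMd, nm]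
      rw [pi_norm_lt_iff hM]
      intro i
      rw [pi_norm_lt_iff hM]
      intro j
      have h1 := hE i j
      have h2 := hcon i j
      rw [Real.norm_eq_abs] at h1 ⊢
      have h3 : |k.1 i j| ≤ |k.1 i j - v i * φ j| + |v i * φ j| := by
        have := abs_add_le (k.1 i j - v i * φ j) (v i * φ j)
        rwa [sub_add_cancel] at this
      linarith
    exact lt_irrefl _ this
  have hvφ : M ^ 2 / 4 ≤ nq v * φ j ^ 2 := by
    have h1 : (M / 2) ^ 2 ≤ |v i * φ j| ^ 2 := pow_le_pow_left₀ (by positivity) hij 2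
    rw [sq_abs, mul_pow] at h1
    have h2 : v i ^ 2 * φ j ^ 2 ≤ nq v * φ j ^ 2 :=
      mul_le_mul_of_nonneg_right (sq_le_nq v i) (sq_nonneg _)
    nlinarith
  -- the coordinate `j` of `w k`
  set e : Fin 3 → ℝ := fun l => k.1 l j - v l * φ j with he
  have hcoord : (w ᵥ* k.1) j = (w ⬝ᵥ v) * φ j + w ⬝ᵥ e := by
    simp only [vecMul, dotProduct, he, Finset.sum_mul, ← Finset.sum_add_distrib]
    exact Finset.sum_congr rfl fun l _ => by ring
  have hnw : 0 ≤ nq w := nq_nonneg w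
  have hee : nq e ≤ 3 * (M / T) ^ 2 := by
    unfold nq
    have h1 : ∀ l, e l ^ 2 ≤ (M / T) ^ 2 := fun l => by
      rw [← sq_abs]
      exact pow_le_pow_left₀ (abs_nonneg _) (hE l j) 2
    calc ∑ l, e l ^ 2 ≤ ∑ _l : Fin 3, (M / T) ^ 2 := Finset.sum_le_sum fun l _ => h1 l
      _ = 3 * (M / T) ^ 2 := by simp
  have hwe : (w ⬝ᵥ e) ^ 2 ≤ nq w * (3 * (M / T) ^ 2) :=
    (dot_sq_le w e).trans (mul_le_mul_of_nonneg_left hee hnw)
  have hT48 : 48 / c ≤ T ^ 2 := by nlinarith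
  have hMT2 : 3 * (M / T) ^ 2 ≤ c / 16 * M ^ 2 := by
    rw [div_pow, mul_div_assoc', div_le_iff₀ (by positivity)]
    have h1 : 48 ≤ T ^ 2 * c := (div_le_iff₀ hc).mp hT48
    have h2 : 0 < M ^ 2 := by positivity
    nlinarith
  have hmain : c * nq v * nq w * φ j ^ 2 ≤ ((w ⬝ᵥ v) * φ j) ^ 2 := by
    rw [mul_pow]
    exact mul_le_mul_of_nonneg_right (hw v hv hvA) (sq_nonneg _)
  have h5 : c / 4 * M ^ 2 * nq w ≤ ((w ⬝ᵥ v) * φ j) ^ 2 := by
    have : c * nq w * (M ^ 2 / 4) ≤ c * nq w * (nq v * φ j ^ 2) :=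
      mul_le_mul_of_nonneg_left hvφ (by positivity)
    linarith
  have h6 : c / 16 * M ^ 2 * nq w ≤ (w ᵥ* k.1) j ^ 2 := by
    rw [hcoord]
    have h7 : ((w ⬝ᵥ v) * φ j) ^ 2 ≤ 2 * ((w ⬝ᵥ v) * φ j + w ⬝ᵥ e) ^ 2 + 2 * (w ⬝ᵥ e) ^ 2 := by
      nlinarith [sq_nonneg ((w ⬝ᵥ v) * φ j + w ⬝ᵥ e + w ⬝ᵥ e)]
    have h8 : nq w * (3 * (M / T) ^ 2) ≤ nq w * (c / 16 * M ^ 2) :=
      mul_le_mul_of_nonneg_left hMT2 hnw
    nlinarith
  have h9 := sq_le_nq (w ᵥ* k.1) j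
  have h10 : c / 144 * hs k.1 * nq w ≤ c / 144 * (9 * M ^ 2) * nq w :=
    mul_le_mul_of_nonneg_right (mul_le_mul_of_nonneg_left (hs_le_nm k) (by positivity)) hnw
  linarith

/-! ### The count -/

section count

variable {Γ : Type} [Group Γ]

/-- **[D-I1G]** The pointwise count. -/
theorem i1_pointwise (q : Γ →* G3 ℝ) (hfin : ∀ R : ℝ, {γ | nm (q γ) ≤ R}.Finite) (u h : CP ℝ)
    (hu : NInc (tsupport u) (tsupport h)) :
    ∃ A : Set (PP ℝ), IsOpen A ∧ tsupport u ⊆ A ∧ ∃ T₀ : ℝ, 0 < T₀ ∧ ∀ T, T₀ ≤ T → ∀ R : ℝ,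
      ∃ C : ℝ, 0 ≤ C ∧ ∀ (J : ℕ) (S : Finset Γ),
        (∀ γ ∈ S, NW R (q γ) ∧ Att T A (q γ) ∧ nm (q γ) ≤ Real.exp J) →
          ∀ y : PP ℝ, ∑ γ ∈ S, ‖h (tau ℝ (q γ) • y)‖ ^ 2 ≤ C * (J + 1) := by
  obtain ⟨A, hAo, huA, hAB⟩ := exists_nhd (isClosed_tsupport u) (isClosed_tsupport h) hu
  obtain ⟨c, hc, hang⟩ := exists_angle isClosed_closure (isClosed_tsupport h) hAB
  have hE : Emb (fun γ => (q γ : Matrix (Fin 3) (Fin 3) ℝ)) := by
    refine ⟨fun g h => Or.inl ?_, fun g => ?_, fun R => ?_⟩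
    · rw [map_mul]
      exact Matrix.SpecialLinearGroup.coe_mul _ _
    · rw [(q g).2, one_pow]
    · refine (hfin (Real.sqrt R)).subset fun γ hγ => ?_
      rw [Set.mem_ofPred_eq] at hγ ⊢
      exact Real.le_sqrt_of_sq_le ((nm_sq_le_hs (q γ)).trans hγ)
  refine ⟨A, hAo, huA, 2 + 48 / c, by positivity, fun T hT R => ?_⟩
  obtain ⟨N, hN⟩ := hE.pointwise (R := 81 * R ^ 2) (c := c / 144) (by positivity)
  have hH : 0 < ‖h‖ + 1 := by positivity
  refine ⟨(‖h‖ + 1) ^ 2 * (4 * N), by positivity, fun J S hS y => ?_⟩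
  set φ : Γ → PP ℝ → ℂ := fun γ y => h (tau ℝ (q γ) • y) / ((‖h‖ + 1 : ℝ) : ℂ) with hφ
  have hn : ∀ γ y, ‖φ γ y‖ = ‖h (tau ℝ (q γ) • y)‖ / (‖h‖ + 1) := fun γ y => by
    rw [hφ, norm_div, Complex.norm_real, Real.norm_of_nonneg hH.le]
  have key := hN (2 * J + 3) S φ
    (fun γ y => by
      rw [hn, div_le_one hH]
      exact (h.norm_coe_le_norm _).trans (by linarith))
    (fun γ hγ => by
      obtain ⟨h1, h2, h3⟩ := hS γ hγ
      have hM := nm_pos (q γ)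
      refine ⟨?_, ?_, ?_⟩
      · refine (hs_le_nm (q γ)).trans ?_
        have f1 : nm (q γ) ^ 2 ≤ Real.exp J ^ 2 := pow_le_pow_left₀ hM.le h3 2
        have f2 : (9 : ℝ) ≤ Real.exp 3 := by
          have e1 := Real.quadratic_le_exp_of_nonneg (x := 3) (by norm_num)
          have e2 := Real.exp_one_gt_d9
          have e3 : Real.exp 3 = Real.exp 1 ^ 3 := by
            rw [← Real.exp_nat_mul]
            norm_num
          rw [e3]
          nlinarith [pow_le_pow_left₀ (by norm_num) e2.le 3]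
        have f3 : Real.exp J ^ 2 = Real.exp (2 * J) := by
          rw [← Real.exp_nat_mul]
          norm_num
        push_cast
        rw [Real.exp_add, ← f3]
        nlinarith [sq_nonneg (Real.exp (J : ℝ))]
      · have g1 := hs_le_nm (q γ)⁻¹
        rw [coe_inv_eq] at g1
        have g0 : 0 ≤ hs ((q γ).1)⁻¹ := hs_nonneg _
        have g2 : hs ((q γ).1)⁻¹ ^ 2 ≤ (9 * nm (q γ)⁻¹ ^ 2) ^ 2 := pow_le_pow_left₀ g0 g1 2
        have g3 : (9 * nm (q γ)⁻¹ ^ 2) ^ 2 ≤ (9 * (R * nm (q γ))) ^ 2 :=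
          pow_le_pow_left₀ (by positivity) (mul_le_mul_of_nonneg_left h1 (by norm_num)) 2
        have g4 := nm_sq_le_hs (q γ)
        calc hs ((q γ).1)⁻¹ ^ 2 ≤ (9 * (R * nm (q γ))) ^ 2 := g2.trans g3
          _ = 81 * R ^ 2 * nm (q γ) ^ 2 := by ring
          _ ≤ _ := mul_le_mul_of_nonneg_left g4 (by positivity)
      · intro p hp hne
        set w : Fin 3 → ℝ := p ᵥ* ((q γ).1)⁻¹ with hw
        have u1 : IsUnit ((q γ).1).det := by
          rw [(q γ).2]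
          exact isUnit_one
        have hwp : w ᵥ* (q γ).1 = p := by
          rw [hw, vecMul_vecMul, nonsing_inv_mul _ u1, vecMul_one]
        have hw0 : w ≠ 0 := by
          intro h0
          rw [h0, zero_vecMul] at hwp
          exact hp hwp.symm
        have e1 : tau ℝ (q γ) • Projectivization.mk ℝ p hp = pt ℝ w hw0 := by
          change Projectivization.mk ℝ ((((q γ)⁻¹).1)ᵀ *ᵥ p) _ = _
          unfold pt
          refine (Projectivization.mk_eq_mk_iff _ _ _ _ _).mpr ⟨1, ?_⟩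
          rw [one_smul, mulVec_transpose, coe_inv_eq]
        have hwB : pt ℝ w hw0 ∈ tsupport h := by
          refine subset_tsupport _ ?_
          rw [Function.mem_support, ← e1]
          intro h0
          apply hne
          rw [hφ]
          simp only
          rw [h0, zero_div]
        have := att_angle hc hT h2 (w := w) fun v hv hvA =>
          hang v w hv hw0 (subset_closure hvA) hwB
        rwa [hwp] at this)
    y
  have e2 : ∑ γ ∈ S, ‖h (tau ℝ (q γ) • y)‖ ^ 2 = (‖h‖ + 1) ^ 2 * ∑ γ ∈ S, ‖φ γ y‖ ^ 2 := by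
    rw [Finset.mul_sum]
    refine Finset.sum_congr rfl fun γ _ => ?_
    rw [hn, div_pow]
    field_simp
  rw [e2]
  have e3 : (N : ℝ) * (((2 * J + 3 : ℕ) : ℝ) + 1) ≤ 4 * N * (J + 1) := by
    push_cast
    have : (0 : ℝ) ≤ N * J := by positivity
    linarith
  calc (‖h‖ + 1) ^ 2 * ∑ γ ∈ S, ‖φ γ y‖ ^ 2 ≤ (‖h‖ + 1) ^ 2 * (4 * N * (J + 1)) :=
        mul_le_mul_of_nonneg_left (key.trans e3) (by positivity)
    _ = _ := by ring

end count

end Vale.Agent.P092.H944
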