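import Vale.Agent.P092.H944.DI1

/-!
P092 (helper944), TEAM D, block [D-I1G]: the trace of `m S * F h`.
-/

set_option linter.unusedSectionVars false

open scoped InnerProductSpace ENNReal LinearAlgebra.Projectivization
open Filter Topology ContinuousLinearMap Matrix

namespace Vale.Agent.P092.H944

open Vale.Agent.P092.SD Vale.Agent.P092.H820 Vale.Agent.P092.RC

section ms

variable {Γ K : Type} [Group Γ] [NormedAddCommGroup K] [InnerProductSpace ℂ K] [CompleteSpace K]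
  {lam : Γ →* (K →L[ℂ] K)} {W : Set (K →L[ℂ] K)} {Ω : K} {m : Set Γ → (K →L[ℂ] K)}

theorem Ms_idem (hm : Ms lam W Ω m) (S : Set Γ) : m S * m S = m S := by
  rw [← hm.inf, Set.inter_self]

theorem Ms_empty (hm : Ms lam W Ω m) : m ∅ = 0 := by
  have h : m (∅ ∩ ∅ᶜ) = m ∅ * m ∅ᶜ := hm.inf _ _
  rw [Set.inter_compl_self, hm.compl, mul_sub, mul_one, Ms_idem hm, sub_self] at h
  exact h

theorem lam_inv_mul (γ : Γ) : lam γ⁻¹ * lam γ = 1 := by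
  rw [← map_mul, inv_mul_cancel, map_one]

theorem lam_mul_inv (γ : Γ) : lam γ * lam γ⁻¹ = 1 := by
  rw [← map_mul, mul_inv_cancel, map_one]

theorem Ms_single (hm : Ms lam W Ω m) (γ : Γ) : m {γ} (lam γ Ω) = lam γ Ω := by
  have h := hm.cov γ {1}
  rw [Set.image_singleton, mul_one] at h
  rw [← h]
  change (lam γ * m {1} * lam γ⁻¹ * lam γ) Ω = _
  rw [mul_assoc _ (lam γ⁻¹), lam_inv_mul, mul_one]
  change lam γ (m {1} Ω) = _
  rw [hm.om]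

theorem Ms_mem (hm : Ms lam W Ω m) {S : Set Γ} {γ : Γ} (h : γ ∈ S) :
    m S (lam γ Ω) = lam γ Ω := by
  have h1 : m (S ∩ {γ}) = m S * m {γ} := hm.inf _ _
  rw [Set.inter_singleton_of_mem h] at h1
  rw [← Ms_single hm γ]
  change (m S * m {γ}) (lam γ Ω) = _
  rw [← h1]

theorem Ms_not_mem (hm : Ms lam W Ω m) {S : Set Γ} {γ : Γ} (h : γ ∉ S) :
    m S (lam γ Ω) = 0 := by
  have h1 : m (S ∩ {γ}) = m S * m {γ} := hm.inf _ _
  rw [Set.inter_singleton_eq_empty.mpr h, Ms_empty hm] at h1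
  rw [← Ms_single hm γ]
  change (m S * m {γ}) (lam γ Ω) = _
  rw [← h1]
  rfl

theorem Cm_mul {a b : K →L[ℂ] K} (ha : Cm W a) (hb : Cm W b) : Cm W (a * b) := fun w hw => by
  rw [mul_assoc, hb w hw, ← mul_assoc, ha w hw, mul_assoc]

end ms

section trn

variable {Γ G K : Type} [Group Γ] [Group G] [TopologicalSpace G] [NormedAddCommGroup K]
  [InnerProductSpace ℂ K] [CompleteSpace K]
  {π : G →* (K →L[ℂ] K)} {lam : Γ →* (K →L[ℂ] K)} {W : Set (K →L[ℂ] K)} {Ω : K}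
  {m : Set Γ → (K →L[ℂ] K)}

theorem norm_lam (hP : Pic π lam W Ω) (γ : Γ) (ξ : K) : ‖lam γ ξ‖ = ‖ξ‖ := by
  have h : ⟪lam γ ξ, lam γ ξ⟫_ℂ = ⟪ξ, ξ⟫_ℂ := by
    rw [← ContinuousLinearMap.adjoint_inner_left, hP.adjL]
    change ⟪(lam γ⁻¹ * lam γ) ξ, ξ⟫_ℂ = _
    rw [lam_inv_mul]
    rfl
  rw [inner_self_eq_norm_sq_to_K, inner_self_eq_norm_sq_to_K] at h
  have h2 : ‖lam γ ξ‖ ^ 2 = ‖ξ‖ ^ 2 := by exact_mod_cast h
  exact (sq_eq_sq₀ (norm_nonneg _) (norm_nonneg _)).mp h2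

/-- The trace of `m S * L h` for a covariant calculus `L`, from a pointwise bound. -/
theorem trn_le (hP : Pic π lam W Ω) (hm : Ms lam W Ω m) {X : Type} [TopologicalSpace X]
    (L : C(X, ℂ) →⋆ₐ[ℂ] (K →L[ℂ] K)) (hL : ∀ f, Cm W (L f)) (tr : Γ → C(X, ℂ) → C(X, ℂ))
    (hcov : ∀ γ f, lam γ * L f * lam γ⁻¹ = L (tr γ f)) (h : C(X, ℂ)) (S : Set Γ) {N : ℝ}
    (hN : ∀ F : Finset Γ, (∀ γ ∈ F, γ ∈ S) → ∀ y, ∑ γ ∈ F, ‖tr γ⁻¹ (star h) y‖ ^ 2 ≤ N) :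
    TRN lam Ω (m S * L h) ≤ ENNReal.ofReal (N * ‖Ω‖ ^ 2) := by
  classical
  rw [← hP.tr_adj _ (Cm_mul (hm.cm S) (hL h))]
  have e0 : adjoint (m S * L h) = L (star h) * m S := by
    have : star (m S * L h) = star (L h) * star (m S) := star_mul _ _
    rw [← ContinuousLinearMap.star_eq_adjoint, this, ← map_star,
      ContinuousLinearMap.star_eq_adjoint, hm.adj]
  rw [e0, TRN, ENNReal.tsum_eq_iSup_sum]
  refine iSup_le fun F => ?_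
  have e1 : ∀ γ : Γ, γ ∈ S → ‖(L (star h) * m S) (lam γ Ω)‖ = ‖L (tr γ⁻¹ (star h)) Ω‖ := by
    intro γ hγ
    change ‖L (star h) (m S (lam γ Ω))‖ = _
    rw [Ms_mem hm hγ, ← hcov γ⁻¹, inv_inv, ← norm_lam hP γ ((lam γ⁻¹ * L (star h) * lam γ) Ω)]
    change _ = ‖(lam γ * (lam γ⁻¹ * L (star h) * lam γ)) Ω‖
    rw [← mul_assoc, ← mul_assoc, lam_mul_inv, one_mul]
    rfl
  have e2 : ∑ γ ∈ F, ‖(L (star h) * m S) (lam γ Ω)‖ₑ ^ 2 =
      ∑ γ ∈ F.filter (· ∈ S), ‖L (tr γ⁻¹ (star h)) Ω‖ₑ ^ 2 := by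
    rw [Finset.sum_filter]
    refine Finset.sum_congr rfl fun γ _ => ?_
    split_ifs with hγ
    · rw [← enorm_norm, e1 γ hγ, enorm_norm]
    · change ‖L (star h) (m S (lam γ Ω))‖ₑ ^ 2 = 0
      rw [Ms_not_mem hm hγ, map_zero, enorm_zero]
      norm_num
  rw [e2]
  have e3 : ∑ γ ∈ F.filter (· ∈ S), ‖L (tr γ⁻¹ (star h)) Ω‖ₑ ^ 2 =
      ENNReal.ofReal (∑ γ ∈ F.filter (· ∈ S), ‖L (tr γ⁻¹ (star h)) Ω‖ ^ 2) := by
    rw [ENNReal.ofReal_sum_of_nonneg fun _ _ => sq_nonneg _]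
    refine Finset.sum_congr rfl fun γ _ => ?_
    rw [ENNReal.ofReal_pow (norm_nonneg _), ofReal_norm]
  rw [e3]
  refine ENNReal.ofReal_le_ofReal ?_
  exact sum_hom_le L (F.filter (· ∈ S)) (fun γ => tr γ⁻¹ (star h))
    (hN _ fun γ hγ => (Finset.mem_filter.mp hγ).2) Ω

/-- **[D-I1G]**, the trace form. -/
theorem i1_trn (hP : Pic π lam W Ω) (hm : Ms lam W Ω m) (q : Γ →* G3 ℝ)
    (hfin : ∀ R : ℝ, {γ | nm (q γ) ≤ R}.Finite)
    (F : CP ℝ →⋆ₐ[ℂ] (K →L[ℂ] K)) (hF : ∀ f, Cm W (F f))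
    (hcov : ∀ γ f, lam γ * F f * lam γ⁻¹ = F (act (tau ℝ (q γ)) f)) (u h : CP ℝ)
    (hu : NInc (tsupport u) (tsupport h)) :
    ∃ A : Set (PP ℝ), IsOpen A ∧ tsupport u ⊆ A ∧ ∃ T₀ : ℝ, 0 < T₀ ∧ ∀ T, T₀ ≤ T → ∀ R : ℝ,
      ∃ C : ℝ, 0 ≤ C ∧ ∀ (J : ℕ) (S : Set Γ),
        (∀ γ ∈ S, NW R (q γ) ∧ Att T A (q γ) ∧ nm (q γ) ≤ Real.exp J) →
          TRN lam Ω (m S * F h) ≤ ENNReal.ofReal (C * (J + 1)) := by
  have hs : tsupport (star h : CP ℝ) = tsupport h := by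
    unfold tsupport
    congr 1
    ext x
    simp only [Function.mem_support, ContinuousMap.star_apply, ne_eq, star_eq_zero]
  obtain ⟨A, hA, huA, T₀, hT0, hT⟩ := i1_pointwise q hfin u (star h) (by rw [hs]; exact hu)
  refine ⟨A, hA, huA, T₀, hT0, fun T hTT R => ?_⟩
  obtain ⟨C, hC, hJ⟩ := hT T hTT R
  refine ⟨C, hC, fun J S hS => ?_⟩
  have := trn_le hP hm F hF (fun γ => act (tau ℝ (q γ))) hcov h S (N := C * (J + 1))
    fun Fs hFs y => by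
      have e : ∀ γ, act (tau ℝ (q γ⁻¹)) (star h) y = (star h) (tau ℝ (q γ) • y) := by
        intro γ
        change (star h) ((tau ℝ (q γ⁻¹))⁻¹ • y) = _
        rw [map_inv, map_inv, inv_inv]
      simp only [e]
      exact hJ J Fs (fun γ hγ => hS γ (hFs γ hγ)) y
  rwa [hP.nΩ, one_pow, mul_one] at this

end trn

end Vale.Agent.P092.H944
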