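import Vale.Agent.P092.H944.GeoRaw

/-!
P092 (helper944), one simple real factor, block [D-I1G]: near-wall elements of `SL_n(ℝ)` whose
inverses move a line (hyperplane) `p` out of the attracting point are in bounded position to each
other, hence bounded multiplicity of the repelling discs of radius `exp (-s)`.
-/

namespace Vale.Agent.P092.H944

open Matrix

variable {n : ℕ}

/-- Sum of squares. -/
def nq (v : Fin n → ℝ) : ℝ := ∑ i, v i ^ 2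

theorem nq_nonneg (v : Fin n → ℝ) : 0 ≤ nq v := Finset.sum_nonneg fun _ _ => sq_nonneg _

theorem nq_eq (v : Fin n → ℝ) : nq v = v ⬝ᵥ v := by
  unfold nq dotProduct
  exact Finset.sum_congr rfl fun i _ => sq _

theorem nq_pos {v : Fin n → ℝ} (hv : v ≠ 0) : 0 < nq v := by
  rcases (nq_nonneg v).lt_or_eq with h | h
  · exact h
  · refine absurd (funext fun i => ?_) hv
    have := (Finset.sum_eq_zero_iff_of_nonneg (fun i _ => sq_nonneg (v i))).mp h.symm i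
      (Finset.mem_univ i)
    exact pow_eq_zero_iff (two_ne_zero) |>.mp this

theorem sq_le_nq (v : Fin n → ℝ) (i : Fin n) : v i ^ 2 ≤ nq v :=
  Finset.single_le_sum (f := fun i => v i ^ 2) (fun _ _ => sq_nonneg _) (Finset.mem_univ i)

theorem dot_sq_le (v w : Fin n → ℝ) : (v ⬝ᵥ w) ^ 2 ≤ nq v * nq w :=
  Finset.sum_mul_sq_le_sq_mul_sq _ _ _

theorem nq_mulVec {κ : Matrix (Fin n) (Fin n) ℝ} (h : κᵀ * κ = 1) (v : Fin n → ℝ) :
    nq (κ *ᵥ v) = nq v := by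
  rw [nq_eq, nq_eq, dotProduct_mulVec, ← mulVec_transpose, mulVec_mulVec, h, one_mulVec]

theorem nq_vecMul {κ : Matrix (Fin n) (Fin n) ℝ} (h : κ * κᵀ = 1) (v : Fin n → ℝ) :
    nq (v ᵥ* κ) = nq v := by
  have : nq (κᵀ *ᵥ v) = nq v := nq_mulVec (by rwa [transpose_transpose]) v
  rwa [mulVec_transpose] at this

section svd

variable {k κ κ' : Matrix (Fin n) (Fin n) ℝ} {a : Fin n → ℝ}

theorem IsSVD.nq_mul (h : IsSVD k κ a κ') (w : Fin n → ℝ) :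
    nq (k *ᵥ w) = ∑ i, a i ^ 2 * (κ' *ᵥ w) i ^ 2 := by
  rw [h.eq, ← mulVec_mulVec, ← mulVec_mulVec, nq_mulVec h.o1]
  unfold nq
  refine Finset.sum_congr rfl fun i _ => ?_
  rw [mulVec_diagonal, mul_pow]

theorem IsSVD.nq_vec (h : IsSVD k κ a κ') (q : Fin n → ℝ) :
    nq (q ᵥ* k) = ∑ i, a i ^ 2 * (q ᵥ* κ) i ^ 2 := by
  rw [h.eq, ← vecMul_vecMul, ← vecMul_vecMul, nq_vecMul h.o2']
  unfold nq
  refine Finset.sum_congr rfl fun i _ => ?_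
  rw [vecMul_diagonal, mul_pow, mul_comm]

theorem IsSVD.dot (h : IsSVD k κ a κ') (q w : Fin n → ℝ) :
    (q ᵥ* k) ⬝ᵥ w = ∑ i, (q ᵥ* κ) i * (a i * (κ' *ᵥ w) i) := by
  rw [h.eq, ← dotProduct_mulVec, ← mulVec_mulVec, ← mulVec_mulVec, dotProduct_mulVec]
  unfold dotProduct
  refine Finset.sum_congr rfl fun i _ => ?_
  rw [mulVec_diagonal]

theorem IsSVD.le_nq_mul (h : IsSVD k κ a κ') {ρ : ℝ} (hρ0 : 0 ≤ ρ) (hρ : ∀ i, ρ ≤ a i)
    (w : Fin n → ℝ) : ρ ^ 2 * nq w ≤ nq (k *ᵥ w) := by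
  rw [h.nq_mul, ← nq_mulVec h.o2 w, nq, Finset.mul_sum]
  exact Finset.sum_le_sum fun i _ =>
    mul_le_mul_of_nonneg_right (pow_le_pow_left₀ hρ0 (hρ i) 2) (sq_nonneg _)

/-- Singular vectors other than `z` contribute little. -/
theorem IsSVD.nq_mul_le (h : IsSVD k κ a κ') {τ : ℝ} (z : Fin n)
    (hτ : ∀ i, i ≠ z → a i ≤ τ) (w : Fin n → ℝ) :
    nq (k *ᵥ w) ≤ a z ^ 2 * (κ' *ᵥ w) z ^ 2 + τ ^ 2 * nq w := by
  rw [h.nq_mul, ← nq_mulVec h.o2 w, nq, Finset.mul_sum, ← Finset.add_sum_erase _ _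
    (Finset.mem_univ z), ← Finset.add_sum_erase Finset.univ
    (fun i => τ ^ 2 * (κ' *ᵥ w) i ^ 2) (Finset.mem_univ z)]
  have h1 : ∑ i ∈ Finset.univ.erase z, a i ^ 2 * (κ' *ᵥ w) i ^ 2 ≤
      ∑ i ∈ Finset.univ.erase z, τ ^ 2 * (κ' *ᵥ w) i ^ 2 :=
    Finset.sum_le_sum fun i hi => mul_le_mul_of_nonneg_right
      (pow_le_pow_left₀ (h.pos i).le (hτ i (Finset.mem_erase.mp hi).1) 2) (sq_nonneg _)
  have h2 : 0 ≤ τ ^ 2 * (κ' *ᵥ w) z ^ 2 := by positivity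
  linarith

/-- The functional `q k` is close to the repelling functional of `k`. -/
theorem IsSVD.dot_close (h : IsSVD k κ a κ') {τ : ℝ} (z : Fin n)
    (hτ : ∀ i, i ≠ z → a i ≤ τ) (q w : Fin n → ℝ) :
    ((q ᵥ* k) ⬝ᵥ w - (q ᵥ* κ) z * (a z * (κ' *ᵥ w) z)) ^ 2 ≤ τ ^ 2 * nq q * nq w := by
  have e : (q ᵥ* k) ⬝ᵥ w - (q ᵥ* κ) z * (a z * (κ' *ᵥ w) z) =
      ∑ i ∈ Finset.univ.erase z, (q ᵥ* κ) i * (a i * (κ' *ᵥ w) i) := by
    rw [h.dot, ← Finset.add_sum_erase _ _ (Finset.mem_univ z)]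
    ring
  rw [e]
  refine (Finset.sum_mul_sq_le_sq_mul_sq _ _ _).trans ?_
  have h1 : ∑ i ∈ Finset.univ.erase z, (q ᵥ* κ) i ^ 2 ≤ nq q := by
    rw [← nq_vecMul h.o1' q]
    exact Finset.sum_le_sum_of_subset_of_nonneg (Finset.subset_univ _)
      fun _ _ _ => sq_nonneg _
  have h2 : ∑ i ∈ Finset.univ.erase z, (a i * (κ' *ᵥ w) i) ^ 2 ≤ τ ^ 2 * nq w := by
    rw [← nq_mulVec h.o2 w, nq, Finset.mul_sum]
    refine le_trans (b := ∑ i ∈ Finset.univ.erase z, τ ^ 2 * (κ' *ᵥ w) i ^ 2) ?_ ?_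
    · refine Finset.sum_le_sum fun i hi => ?_
      rw [mul_pow]
      exact mul_le_mul_of_nonneg_right
        (pow_le_pow_left₀ (h.pos i).le (hτ i (Finset.mem_erase.mp hi).1) 2) (sq_nonneg _)
    · exact Finset.sum_le_sum_of_subset_of_nonneg (Finset.subset_univ _)
        fun _ _ _ => by positivity
  calc _ ≤ nq q * (τ ^ 2 * nq w) := by
        refine mul_le_mul h1 h2 (Finset.sum_nonneg fun _ _ => sq_nonneg _) (nq_nonneg q)
    _ = _ := by ring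

end svd

/-- **Comparison.** Two near-wall elements which send the same functional `p` away from their
attracting points are in bounded position to each other. -/
theorem nw_compare {k κ κ' k' l l' : Matrix (Fin n) (Fin n) ℝ} {a a' : Fin n → ℝ}
    (h : IsSVD k κ a κ') (h' : IsSVD k' l a' l') (z : Fin n) (hz : ∀ i, a' i ≤ a' z)
    {τ ρ c : ℝ} (hρ0 : 0 < ρ) (hρ : ∀ i, ρ ≤ a i) (hτ : ∀ i, i ≠ z → a' i ≤ τ) (hc : 0 < c)
    {p q q' : Fin n → ℝ} (hp : p ≠ 0) (hq : q ᵥ* k = p) (hq' : q' ᵥ* k' = p)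
    (h1 : c * nq q ≤ (q ᵥ* κ) z ^ 2) (h2 : c * nq q' ≤ (q' ᵥ* l) z ^ 2) (w : Fin n → ℝ) :
    nq (k' *ᵥ w) ≤ (2 / c ^ 2 * (a' z / a z) ^ 2 + (2 / c + 1) * (τ / ρ) ^ 2) *
      nq (k *ᵥ w) := by
  have hq0 : q' ≠ 0 := by
    intro h0
    rw [h0, zero_vecMul] at hq'
    exact hp hq'.symm
  have hQ' : 0 < nq q' := nq_pos hq0
  have hQ : 0 ≤ nq q := nq_nonneg q
  have ha : 0 < a z := h.pos z
  have ha' : 0 < a' z := h'.pos z
  have hK : 0 ≤ nq (k *ᵥ w) := nq_nonneg _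
  have hW : 0 ≤ nq w := nq_nonneg _
  -- size of q against q'
  have e1 : a z ^ 2 * (c * nq q) ≤ nq p := by
    rw [← hq, h.nq_vec]
    refine (mul_le_mul_of_nonneg_left h1 (sq_nonneg _)).trans ?_
    exact Finset.single_le_sum (f := fun i => a i ^ 2 * (q ᵥ* κ) i ^ 2)
      (fun _ _ => by positivity) (Finset.mem_univ z)
  have e2 : nq p ≤ a' z ^ 2 * nq q' := by
    rw [← hq', h'.nq_vec, ← nq_vecMul h'.o1' q', nq, Finset.mul_sum]
    exact Finset.sum_le_sum fun i _ => mul_le_mul_of_nonneg_right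
      (pow_le_pow_left₀ (h'.pos i).le (hz i) 2) (sq_nonneg _)
  have e3 : nq q ≤ (a' z / a z) ^ 2 / c * nq q' := by
    rw [div_pow, div_div, div_mul_eq_mul_div, le_div_iff₀ (by positivity)]
    linarith
  -- value of the functional
  have e4 : (p ⬝ᵥ w) ^ 2 ≤ nq q * nq (k *ᵥ w) := by
    rw [← hq, ← dotProduct_mulVec]
    exact dot_sq_le _ _
  have e5 := h'.dot_close z hτ q' w
  rw [hq'] at e5
  set X := (q' ᵥ* l) z * (a' z * (l' *ᵥ w) z) with hX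
  have e6 : X ^ 2 ≤ 2 * (p ⬝ᵥ w) ^ 2 + 2 * (τ ^ 2 * nq q' * nq w) := by
    nlinarith [sq_nonneg ((p ⬝ᵥ w) + (p ⬝ᵥ w - X))]
  have e7 : c * nq q' * (a' z ^ 2 * (l' *ᵥ w) z ^ 2) ≤ X ^ 2 := by
    rw [hX, mul_pow, mul_pow]
    exact mul_le_mul_of_nonneg_right h2 (by positivity)
  have e8 : nq w ≤ nq (k *ᵥ w) / ρ ^ 2 := by
    rw [le_div_iff₀ (by positivity)]
    have := h.le_nq_mul hρ0.le hρ w
    linarith
  have e9 : a' z ^ 2 * (l' *ᵥ w) z ^ 2 ≤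
      2 / c ^ 2 * (a' z / a z) ^ 2 * nq (k *ᵥ w) + 2 / c * τ ^ 2 * nq w := by
    have f1 : c * nq q' * (a' z ^ 2 * (l' *ᵥ w) z ^ 2) ≤
        c * nq q' * (2 / c ^ 2 * (a' z / a z) ^ 2 * nq (k *ᵥ w) + 2 / c * τ ^ 2 * nq w) := by
      have g1 : nq q * nq (k *ᵥ w) ≤ (a' z / a z) ^ 2 / c * nq q' * nq (k *ᵥ w) :=
        mul_le_mul_of_nonneg_right e3 hK
      have g2 : c * nq q' * (2 / c ^ 2 * (a' z / a z) ^ 2 * nq (k *ᵥ w) +
          2 / c * τ ^ 2 * nq w) = 2 * ((a' z / a z) ^ 2 / c * nq q' * nq (k *ᵥ w)) +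
          2 * (τ ^ 2 * nq q' * nq w) := by
        field_simp
      rw [g2]
      linarith
    exact le_of_mul_le_mul_left f1 (by positivity)
  have e10 := h'.nq_mul_le z hτ w
  have e11 : (2 / c + 1) * τ ^ 2 * nq w ≤ (2 / c + 1) * τ ^ 2 * (nq (k *ᵥ w) / ρ ^ 2) :=
    mul_le_mul_of_nonneg_left e8 (by positivity)
  have e12 : (2 / c + 1) * τ ^ 2 * (nq (k *ᵥ w) / ρ ^ 2) =
      (2 / c + 1) * (τ / ρ) ^ 2 * nq (k *ᵥ w) := by
    rw [div_pow]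
    ring
  calc nq (k' *ᵥ w) ≤ a' z ^ 2 * (l' *ᵥ w) z ^ 2 + τ ^ 2 * nq w := e10
    _ ≤ 2 / c ^ 2 * (a' z / a z) ^ 2 * nq (k *ᵥ w) + (2 / c + 1) * τ ^ 2 * nq w := by
        linarith
    _ ≤ 2 / c ^ 2 * (a' z / a z) ^ 2 * nq (k *ᵥ w) +
        (2 / c + 1) * (τ / ρ) ^ 2 * nq (k *ᵥ w) := by linarith
    _ = _ := by ring

theorem hs_eq_sum_nq (m : Matrix (Fin n) (Fin n) ℝ) :
    hs m = ∑ j, nq (m *ᵥ Pi.single j 1) := by
  unfold hs nq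
  rw [Finset.sum_comm]
  refine Finset.sum_congr rfl fun j _ => Finset.sum_congr rfl fun i _ => ?_
  rw [mulVec_single_one, col_apply]

theorem hs_le_of_compare {k k' : Matrix (Fin n) (Fin n) ℝ} (hk : IsUnit k.det) {K : ℝ}
    (h : ∀ w, nq (k' *ᵥ w) ≤ K * nq (k *ᵥ w)) : hs (k' * k⁻¹) ≤ n * K := by
  rw [hs_eq_sum_nq]
  refine (Finset.sum_le_sum (g := fun _ => K) fun j _ => ?_).trans (by simp)
  have h1 := h (k⁻¹ *ᵥ Pi.single j 1)
  rw [mulVec_mulVec, mulVec_mulVec, mul_nonsing_inv _ hk, one_mulVec] at h1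
  refine h1.trans ?_
  rw [show nq (Pi.single j (1 : ℝ)) = 1 by
    rw [nq_eq, dotProduct_single, Pi.single_eq_same, mul_one], mul_one]

end Vale.Agent.P092.H944
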