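import Vale.Agent.P092.H944.Kap

/-!
P092 (helper944), rank theorem: the logarithmic gaps of the singular values, quasi-invariance,
finiteness.
-/

namespace Vale.Agent.P092.H944

open Matrix

variable {n : ℕ}

theorem exists_svd_choice (g : Matrix (Fin n) (Fin n) ℝ) :
    ∃ p : Matrix (Fin n) (Fin n) ℝ × (Fin n → ℝ) × Matrix (Fin n) (Fin n) ℝ,
      g.det ≠ 0 → IsSVD g p.1 p.2.1 p.2.2 := by
  by_cases h : g.det ≠ 0
  · obtain ⟨k1, a, k2, hk⟩ := exists_svd g h
    exact ⟨(k1, a, k2), fun _ => hk⟩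
  · exact ⟨(1, 1, 1), fun h' => absurd h' h⟩

/-- The left frame of `g`. -/
noncomputable def kA (g : Matrix (Fin n) (Fin n) ℝ) : Matrix (Fin n) (Fin n) ℝ :=
  (exists_svd_choice g).choose.1

/-- The singular values of `g` in decreasing order. -/
noncomputable def sv (g : Matrix (Fin n) (Fin n) ℝ) : Fin n → ℝ :=
  (exists_svd_choice g).choose.2.1

/-- The right frame of `g`. -/
noncomputable def kB (g : Matrix (Fin n) (Fin n) ℝ) : Matrix (Fin n) (Fin n) ℝ :=
  (exists_svd_choice g).choose.2.2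

theorem isSVD {g : Matrix (Fin n) (Fin n) ℝ} (hg : g.det ≠ 0) : IsSVD g (kA g) (sv g) (kB g) :=
  (exists_svd_choice g).choose_spec hg

/-- Logarithm of the `j`-th singular value. -/
noncomputable def la (g : Matrix (Fin n) (Fin n) ℝ) (j : ℕ) : ℝ :=
  if h : j < n then Real.log (sv g ⟨j, h⟩) else 0

/-- `gap j g = log (x_j / x_{j+1})`, `x_0 ≥ x_1 ≥ ...` the eigenvalues of `g gᵀ`. -/
noncomputable def gap (j : ℕ) (g : Matrix (Fin n) (Fin n) ℝ) : ℝ :=
  if j + 1 < n then 2 * (la g j - la g (j + 1)) else 0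

theorem la_fin (g : Matrix (Fin n) (Fin n) ℝ) (i : Fin n) : la g i = Real.log (sv g i) := by
  rw [la, dif_pos i.2]

theorem exp_la {g : Matrix (Fin n) (Fin n) ℝ} (hg : g.det ≠ 0) (i : Fin n) :
    Real.exp (la g i) = sv g i := by
  rw [la_fin, Real.exp_log ((isSVD hg).pos i)]

theorem la_anti {g : Matrix (Fin n) (Fin n) ℝ} (hg : g.det ≠ 0) {i j : ℕ} (hij : i ≤ j)
    (hj : j < n) : la g j ≤ la g i := by
  rw [la, dif_pos hj, la, dif_pos (lt_of_le_of_lt hij hj)]
  exact Real.log_le_log ((isSVD hg).pos _) ((isSVD hg).anti hij)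

theorem gap_nonneg {g : Matrix (Fin n) (Fin n) ℝ} (hg : g.det ≠ 0) (j : ℕ) : 0 ≤ gap j g := by
  unfold gap
  split_ifs with h
  · have := la_anti hg (Nat.le_succ j) h
    linarith
  · exact le_rfl

/-- Telescoping. -/
theorem sum_gap (g : Matrix (Fin n) (Fin n) ℝ) {i j : ℕ} (hij : i ≤ j) (hj : j < n) :
    ∑ l ∈ Finset.Ico i j, gap l g = 2 * (la g i - la g j) := by
  induction j, hij using Nat.le_induction with
  | base => simp
  | succ m him ih =>
    rw [Finset.sum_Ico_succ_top him, ih (by omega), gap, if_pos hj]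
    ring

/-- The constant of quasi-invariance. -/
noncomputable def lc (s : Matrix (Fin n) (Fin n) ℝ) : ℝ :=
  |Real.log (n * Real.sqrt (hs s))| + |Real.log (n * Real.sqrt (hs s⁻¹))|

theorem lc_nonneg (s : Matrix (Fin n) (Fin n) ℝ) : 0 ≤ lc s := by
  unfold lc; positivity

theorem hs_pos {s : Matrix (Fin n) (Fin n) ℝ} (hs0 : s.det ≠ 0) (hn : 0 < n) : 0 < hs s := by
  by_contra h
  have h1 : hs s = 0 := le_antisymm (not_lt.mp h) (hs_nonneg s)
  have h2 : s = 0 := by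
    ext i j
    have := sq_entry_le s i j
    rw [h1] at this
    have := le_antisymm this (sq_nonneg _)
    simpa using this
  have : Nonempty (Fin n) := Fin.pos_iff_nonempty.mp hn
  exact hs0 (by rw [h2]; exact det_zero)

theorem inv_det_ne {s : Matrix (Fin n) (Fin n) ℝ} (hs0 : s.det ≠ 0) : s⁻¹.det ≠ 0 := by
  rw [det_nonsing_inv, Ring.inverse_eq_inv']
  exact inv_ne_zero hs0

theorem mul_det_ne {s g : Matrix (Fin n) (Fin n) ℝ} (h1 : s.det ≠ 0) (h2 : g.det ≠ 0) :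
    (s * g).det ≠ 0 := by
  rw [det_mul]; exact mul_ne_zero h1 h2

theorem sv_left_le {s g : Matrix (Fin n) (Fin n) ℝ} (h1 : s.det ≠ 0) (h2 : g.det ≠ 0)
    (i : Fin n) : sv (s * g) i ≤ n * Real.sqrt (hs s) * sv g i := by
  have a1 := isSVD h2
  have a2 := isSVD (mul_det_ne h1 h2)
  have o := orth_mul_tr a1.o2' a2.o2' a1.o2 a2.o2
  exact sv_le_of_kap o.1 o.2 a1.pos a2.pos a1.anti a2.anti (fun i j => left_kap a1 a2 rfl i j) i

theorem orth_tr_mul {k k' : Matrix (Fin n) (Fin n) ℝ} (h : k * kᵀ = 1) (h' : k' * k'ᵀ = 1)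
    (h2 : kᵀ * k = 1) (h2' : k'ᵀ * k' = 1) :
    (k'ᵀ * k) * (k'ᵀ * k)ᵀ = 1 ∧ (k'ᵀ * k)ᵀ * (k'ᵀ * k) = 1 := by
  have e : (k'ᵀ * k)ᵀ = kᵀ * k' := by rw [transpose_mul, transpose_transpose]
  rw [e]
  constructor
  · calc k'ᵀ * k * (kᵀ * k') = k'ᵀ * (k * kᵀ) * k' := by simp only [Matrix.mul_assoc]
      _ = 1 := by rw [h, Matrix.mul_one, h2']
  · calc kᵀ * k' * (k'ᵀ * k) = kᵀ * (k' * k'ᵀ) * k := by simp only [Matrix.mul_assoc]
      _ = 1 := by rw [h', Matrix.mul_one, h2]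

theorem sv_right_le {g t : Matrix (Fin n) (Fin n) ℝ} (h1 : t.det ≠ 0) (h2 : g.det ≠ 0)
    (i : Fin n) : sv (g * t) i ≤ n * Real.sqrt (hs t) * sv g i := by
  have a1 := isSVD h2
  have a2 := isSVD (mul_det_ne h2 h1)
  have o := orth_tr_mul a1.o1' a2.o1' a1.o1 a2.o1
  exact sv_le_of_kap o.1 o.2 a1.pos a2.pos a1.anti a2.anti (fun i j => right_kap a1 a2 rfl i j) i

theorem abs_la_left {s g : Matrix (Fin n) (Fin n) ℝ} (h1 : s.det ≠ 0) (h2 : g.det ≠ 0)
    (j : ℕ) : |la (s * g) j - la g j| ≤ lc s := by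
  by_cases hj : j < n
  · have hn : 0 < n := by omega
    have hn' : (0 : ℝ) < n := by exact_mod_cast hn
    have e1 := sv_left_le h1 h2 ⟨j, hj⟩
    have e2 := sv_left_le (inv_det_ne h1) (mul_det_ne h1 h2) ⟨j, hj⟩
    rw [← Matrix.mul_assoc, nonsing_inv_mul _ (isUnit_iff_ne_zero.mpr h1), Matrix.one_mul] at e2
    have p1 := (isSVD h2).pos ⟨j, hj⟩
    have p2 := (isSVD (mul_det_ne h1 h2)).pos ⟨j, hj⟩
    have q1 := Real.sqrt_pos.mpr (hs_pos h1 hn)
    have q2 := Real.sqrt_pos.mpr (hs_pos (inv_det_ne h1) hn)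
    have l1 := Real.log_le_log p2 e1
    have l2 := Real.log_le_log p1 e2
    rw [Real.log_mul (by positivity) p1.ne'] at l1
    rw [Real.log_mul (by positivity) p2.ne'] at l2
    rw [la, dif_pos hj, la, dif_pos hj, lc]
    have b1 := le_abs_self (Real.log (n * Real.sqrt (hs s)))
    have b2 := le_abs_self (Real.log (n * Real.sqrt (hs s⁻¹)))
    have b3 := abs_nonneg (Real.log (n * Real.sqrt (hs s)))
    have b4 := abs_nonneg (Real.log (n * Real.sqrt (hs s⁻¹)))
    rw [abs_le]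
    constructor <;> linarith
  · rw [la, dif_neg hj, la, dif_neg hj, sub_zero, abs_zero]
    exact lc_nonneg s

theorem abs_la_right {g t : Matrix (Fin n) (Fin n) ℝ} (h1 : t.det ≠ 0) (h2 : g.det ≠ 0)
    (j : ℕ) : |la (g * t) j - la g j| ≤ lc t := by
  by_cases hj : j < n
  · have hn : 0 < n := by omega
    have hn' : (0 : ℝ) < n := by exact_mod_cast hn
    have e1 := sv_right_le h1 h2 ⟨j, hj⟩
    have e2 := sv_right_le (inv_det_ne h1) (mul_det_ne h2 h1) ⟨j, hj⟩
    rw [Matrix.mul_assoc, mul_nonsing_inv _ (isUnit_iff_ne_zero.mpr h1), Matrix.mul_one] at e2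
    have p1 := (isSVD h2).pos ⟨j, hj⟩
    have p2 := (isSVD (mul_det_ne h2 h1)).pos ⟨j, hj⟩
    have q1 := Real.sqrt_pos.mpr (hs_pos h1 hn)
    have q2 := Real.sqrt_pos.mpr (hs_pos (inv_det_ne h1) hn)
    have l1 := Real.log_le_log p2 e1
    have l2 := Real.log_le_log p1 e2
    rw [Real.log_mul (by positivity) p1.ne'] at l1
    rw [Real.log_mul (by positivity) p2.ne'] at l2
    rw [la, dif_pos hj, la, dif_pos hj, lc]
    have b1 := le_abs_self (Real.log (n * Real.sqrt (hs t)))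
    have b2 := le_abs_self (Real.log (n * Real.sqrt (hs t⁻¹)))
    have b3 := abs_nonneg (Real.log (n * Real.sqrt (hs t)))
    have b4 := abs_nonneg (Real.log (n * Real.sqrt (hs t⁻¹)))
    rw [abs_le]
    constructor <;> linarith
  · rw [la, dif_neg hj, la, dif_neg hj, sub_zero, abs_zero]
    exact lc_nonneg t

theorem abs_gap_left {s g : Matrix (Fin n) (Fin n) ℝ} (h1 : s.det ≠ 0) (h2 : g.det ≠ 0)
    (j : ℕ) : |gap j (s * g) - gap j g| ≤ 4 * lc s := by
  unfold gap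
  split_ifs with h
  · have e1 := abs_la_left h1 h2 j
    have e2 := abs_la_left h1 h2 (j + 1)
    rw [abs_le] at e1 e2 ⊢
    constructor <;> linarith [e1.1, e1.2, e2.1, e2.2]
  · rw [sub_zero, abs_zero]
    have := lc_nonneg s
    positivity

theorem abs_gap_right {g t : Matrix (Fin n) (Fin n) ℝ} (h1 : t.det ≠ 0) (h2 : g.det ≠ 0)
    (j : ℕ) : |gap j (g * t) - gap j g| ≤ 4 * lc t := by
  unfold gap
  split_ifs with h
  · have e1 := abs_la_right h1 h2 j
    have e2 := abs_la_right h1 h2 (j + 1)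
    rw [abs_le] at e1 e2 ⊢
    constructor <;> linarith [e1.1, e1.2, e2.1, e2.2]
  · rw [sub_zero, abs_zero]
    have := lc_nonneg t
    positivity

/-- Quasi-invariance of the gaps. -/
theorem abs_gap_le {s g t : Matrix (Fin n) (Fin n) ℝ} (h1 : s.det ≠ 0) (h2 : g.det ≠ 0)
    (h3 : t.det ≠ 0) (j : ℕ) : |gap j (s * g * t) - gap j g| ≤ 4 * lc s + 4 * lc t := by
  have e1 := abs_gap_left h1 h2 j
  have e2 := abs_gap_right h3 (mul_det_ne h1 h2) j
  rw [abs_le] at e1 e2 ⊢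
  constructor <;> linarith [e1.1, e1.2, e2.1, e2.2]

theorem abs_det_orth {k : Matrix (Fin n) (Fin n) ℝ} (h : kᵀ * k = 1) : |k.det| = 1 := by
  have := congrArg Matrix.det h
  rw [det_mul, det_transpose, det_one] at this
  have h2 : |k.det| * |k.det| = 1 := by rw [← abs_mul, this, abs_one]
  nlinarith [abs_nonneg k.det]

theorem prod_sv {g : Matrix (Fin n) (Fin n) ℝ} (hg : g.det ≠ 0) : ∏ i, sv g i = |g.det| := by
  have h := isSVD hg
  conv_rhs => rw [h.eq]
  rw [det_mul, det_mul, det_diagonal, abs_mul, abs_mul, abs_det_orth h.o1, abs_det_orth h.o2,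
    one_mul, mul_one, Finset.abs_prod]
  exact Finset.prod_congr rfl fun i _ => (abs_of_pos (h.pos i)).symm

theorem hs_eq_sum_sv {g : Matrix (Fin n) (Fin n) ℝ} (hg : g.det ≠ 0) :
    hs g = ∑ i, sv g i ^ 2 := by
  have h := isSVD hg
  conv_lhs => rw [h.eq]
  rw [hs_mul_orth _ h.o2', hs_orth_mul _ h.o1]
  unfold hs
  refine Finset.sum_congr rfl fun i _ => ?_
  rw [Finset.sum_eq_single i]
  · rw [diagonal_apply_eq]
  · intro j _ hj
    rw [diagonal_apply_ne _ (Ne.symm hj)]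
    simp
  · intro hi
    exact absurd (Finset.mem_univ i) hi

/-- Bounded gaps bound the matrix. -/
theorem hs_le_of_gap {g : Matrix (Fin n) (Fin n) ℝ} (hg : g.det = 1) {R : ℝ}
    (h : ∀ j, j + 1 < n → gap j g ≤ R) : hs g ≤ n * Real.exp (n * |R|) := by
  have hg0 : g.det ≠ 0 := by rw [hg]; exact one_ne_zero
  rcases Nat.eq_zero_or_pos n with hn | hn
  · subst hn
    simp [hs]
  have hlast : n - 1 < n := by omega
  have hR : ∀ i : Fin n, 2 * la g i ≤ 2 * la g (n - 1) + n * |R| := by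
    intro i
    have e := sum_gap g (Nat.le_sub_one_of_lt i.2) hlast
    have e2 : ∑ l ∈ Finset.Ico (i : ℕ) (n - 1), gap l g ≤
        ∑ l ∈ Finset.Ico (i : ℕ) (n - 1), |R| :=
      Finset.sum_le_sum fun l hl =>
        (h l (by rw [Finset.mem_Ico] at hl; omega)).trans (le_abs_self R)
    rw [Finset.sum_const, Nat.card_Ico, nsmul_eq_mul] at e2
    have e3 : ((n - 1 - (i : ℕ) : ℕ) : ℝ) * |R| ≤ n * |R| := by
      refine mul_le_mul_of_nonneg_right ?_ (abs_nonneg R)
      exact_mod_cast (by omega : n - 1 - (i : ℕ) ≤ n)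
    linarith
  have hl : la g (n - 1) ≤ 0 := by
    have hp := prod_sv hg0
    rw [hg, abs_one] at hp
    have h1 : sv g ⟨n - 1, hlast⟩ ^ n ≤ 1 := by
      rw [← hp]
      calc sv g ⟨n - 1, hlast⟩ ^ n = ∏ _i : Fin n, sv g ⟨n - 1, hlast⟩ := by simp
        _ ≤ ∏ i, sv g i := by
          refine Finset.prod_le_prod (fun i _ => ((isSVD hg0).pos _).le) fun i _ => ?_
          refine (isSVD hg0).anti ?_
          exact Fin.le_def.mpr (Nat.le_sub_one_of_lt i.2)
    have h2 : sv g ⟨n - 1, hlast⟩ ≤ 1 := by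
      by_contra hc
      exact absurd h1 (not_le.mpr (one_lt_pow₀ (not_le.mp hc) (by omega)))
    rw [la, dif_pos hlast]
    exact Real.log_nonpos ((isSVD hg0).pos _).le h2
  rw [hs_eq_sum_sv hg0]
  calc ∑ i, sv g i ^ 2 ≤ ∑ _i : Fin n, Real.exp (n * |R|) := by
        refine Finset.sum_le_sum fun i _ => ?_
        rw [← exp_la hg0 i, ← Real.exp_nat_mul]
        refine Real.exp_le_exp.mpr ?_
        have := hR i
        push_cast
        linarith
    _ = _ := by simp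

/-- Finiteness of the set of elements with bounded gaps. -/
theorem gap_finite {Γ : Type} [Group Γ] (φ : Γ →* SpecialLinearGroup (Fin n) ℝ)
    (fin : ∀ R, {g : Γ | hs (φ g : Matrix (Fin n) (Fin n) ℝ) ≤ R}.Finite) (R : ℝ) :
    {g : Γ | ∀ j, j + 1 < n → gap j (φ g : Matrix (Fin n) (Fin n) ℝ) ≤ R}.Finite :=
  (fin (n * Real.exp (n * |R|))).subset fun g hg => hs_le_of_gap (φ g).2 hg

end Vale.Agent.P092.H944
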