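import Vale.Agent.P092.H944.Gap

/-!
P092 (helper944), rank theorem: the gauges `f_t(g; b)` and `f°_t(g; b)` and their asymptotic
left equivariance, right invariance, comparison.
-/

namespace Vale.Agent.P092.H944

open Matrix

variable {n : ℕ}

/-- Partial sums. -/
def cum (u : ℕ → ℝ) (i : ℕ) : ℝ := ∑ l ∈ Finset.range i, u l

theorem cum_sub {u : ℕ → ℝ} {i j : ℕ} (h : i ≤ j) :
    cum u j - cum u i = ∑ l ∈ Finset.Ico i j, u l := by
  rw [Finset.sum_Ico_eq_sub _ h]
  rfl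

/-- `∑ D_i |row_i b|²`. -/
def wf (D : Fin n → ℝ) (b : Matrix (Fin n) (Fin n) ℝ) : ℝ := ∑ i, D i * ∑ c, b i c ^ 2

theorem wf_nonneg {D : Fin n → ℝ} (hD : ∀ i, 0 ≤ D i) (b : Matrix (Fin n) (Fin n) ℝ) :
    0 ≤ wf D b :=
  Finset.sum_nonneg fun i _ => mul_nonneg (hD i) (Finset.sum_nonneg fun c _ => sq_nonneg _)

theorem wf_le {D D' : Fin n → ℝ} {C : ℝ} (h : ∀ i, D i ≤ C * D' i)
    (b : Matrix (Fin n) (Fin n) ℝ) : wf D b ≤ C * wf D' b := by
  unfold wf
  rw [Finset.mul_sum]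
  refine Finset.sum_le_sum fun i _ => ?_
  rw [← mul_assoc]
  exact mul_le_mul_of_nonneg_right (h i) (Finset.sum_nonneg fun c _ => sq_nonneg _)

theorem wf_one (b : Matrix (Fin n) (Fin n) ℝ) : wf (fun _ => 1) b = hs b := by
  simp [wf, hs]

/-- Matrix form of `form_compare`. -/
theorem wf_compare {κ : Matrix (Fin n) (Fin n) ℝ} (h : κ * κᵀ = 1) (h' : κᵀ * κ = 1)
    {q : Fin n → ℝ} (hq : ∀ i, 0 < q i) {η : ℝ} (hη0 : 0 ≤ η) (hη1 : η ≤ 1)
    (hκ : ∀ i j, q i ≠ q j → Real.sqrt (q i) * |κ i j| ≤ η * Real.sqrt (q j) ∧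
      Real.sqrt (q j) * |κ i j| ≤ η * Real.sqrt (q i)) (Z : Matrix (Fin n) (Fin n) ℝ) :
    |wf q (κ * Z) - wf q Z| ≤ 2 * n ^ 2 * η * wf q Z := by
  have e1 : ∀ Y : Matrix (Fin n) (Fin n) ℝ, wf q Y = ∑ c, ∑ i, q i * Y i c ^ 2 := by
    intro Y
    unfold wf
    rw [Finset.sum_comm]
    exact Finset.sum_congr rfl fun i _ => by rw [Finset.mul_sum]
  rw [e1, e1, ← Finset.sum_sub_distrib, Finset.mul_sum]
  refine (Finset.abs_sum_le_sum_abs _ _).trans (Finset.sum_le_sum fun c _ => ?_)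
  exact form_compare h h' hq hη0 hη1 hκ (fun i => Z i c)

section kap

theorem sqrt_hs_le_exp {s : Matrix (Fin n) (Fin n) ℝ} (h1 : s.det ≠ 0) (hn : 0 < n) :
    Real.sqrt (hs s) ≤ Real.exp (lc s) ∧ Real.sqrt (hs s⁻¹) ≤ Real.exp (lc s) := by
  have hn' : (1 : ℝ) ≤ n := by exact_mod_cast hn
  have key : ∀ m : Matrix (Fin n) (Fin n) ℝ, m.det ≠ 0 →
      |Real.log (n * Real.sqrt (hs m))| ≤ lc s → Real.sqrt (hs m) ≤ Real.exp (lc s) := by
    intro m hm hl
    have hp : 0 < Real.sqrt (hs m) := Real.sqrt_pos.mpr (hs_pos hm hn)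
    have hp2 : 0 < n * Real.sqrt (hs m) := by positivity
    calc Real.sqrt (hs m) ≤ n * Real.sqrt (hs m) := le_mul_of_one_le_left hp.le hn'
      _ = Real.exp (Real.log (n * Real.sqrt (hs m))) := (Real.exp_log hp2).symm
      _ ≤ Real.exp (lc s) := Real.exp_le_exp.mpr ((le_abs_self _).trans hl)
  refine ⟨key s h1 ?_, key s⁻¹ (inv_det_ne h1) ?_⟩ <;> unfold lc
  · have := abs_nonneg (Real.log (n * Real.sqrt (hs s⁻¹)))
    linarith
  · have := abs_nonneg (Real.log (n * Real.sqrt (hs s)))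
    linarith

theorem left_kap_bd {s g : Matrix (Fin n) (Fin n) ℝ} (h1 : s.det ≠ 0) (h2 : g.det ≠ 0)
    (i j : Fin n) : |(kB (s * g) * (kB g)ᵀ) i j| ≤
      Real.exp (2 * lc s) * Real.exp (-|la g i - la g j|) := by
  have hn : 0 < n := i.pos
  have a1 := isSVD h2
  have h3 := mul_det_ne h1 h2
  have a2 := isSVD h3
  obtain ⟨q1, q2⟩ := sqrt_hs_le_exp h1 hn
  have e1 := left_kap a1 a2 rfl i j
  have hg : g = s⁻¹ * (s * g) := by
    rw [← Matrix.mul_assoc, nonsing_inv_mul _ (isUnit_iff_ne_zero.mpr h1), Matrix.one_mul]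
  have e2 := left_kap a2 a1 hg j i
  have e3 : (kB g * (kB (s * g))ᵀ) j i = (kB (s * g) * (kB g)ᵀ) i j := by
    have : kB g * (kB (s * g))ᵀ = (kB (s * g) * (kB g)ᵀ)ᵀ := by
      rw [transpose_mul, transpose_transpose]
    rw [this, transpose_apply]
  rw [e3] at e2
  have b1 := abs_le.mp (abs_la_left h1 h2 i)
  rw [← exp_la h3, ← exp_la h2] at e1 e2
  obtain ⟨x, hx⟩ : ∃ x, x = |(kB (s * g) * (kB g)ᵀ) i j| := ⟨_, rfl⟩
  rw [← hx] at e1 e2 ⊢
  have c1 : x ≤ Real.exp (2 * lc s) * Real.exp (la g j - la g i) := by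
    have f1 : Real.exp (la (s * g) i) * x ≤ Real.exp (la (s * g) i) *
        (Real.exp (lc s) * Real.exp (la g j - la (s * g) i)) := by
      refine e1.trans ?_
      calc Real.sqrt (hs s) * Real.exp (la g j) ≤ Real.exp (lc s) * Real.exp (la g j) :=
            mul_le_mul_of_nonneg_right q1 (Real.exp_pos _).le
        _ = _ := by rw [← Real.exp_add, ← Real.exp_add, ← Real.exp_add]; congr 1; ring
    refine (le_of_mul_le_mul_left f1 (Real.exp_pos _)).trans ?_
    rw [← Real.exp_add, ← Real.exp_add]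
    refine Real.exp_le_exp.mpr ?_
    linarith [b1.1]
  have c2 : x ≤ Real.exp (2 * lc s) * Real.exp (la g i - la g j) := by
    have f1 : Real.exp (la g j) * x ≤ Real.exp (la g j) *
        (Real.exp (lc s) * Real.exp (la (s * g) i - la g j)) := by
      refine e2.trans ?_
      calc Real.sqrt (hs s⁻¹) * Real.exp (la (s * g) i)
          ≤ Real.exp (lc s) * Real.exp (la (s * g) i) :=
            mul_le_mul_of_nonneg_right q2 (Real.exp_pos _).le
        _ = _ := by rw [← Real.exp_add, ← Real.exp_add, ← Real.exp_add]; congr 1; ring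
    refine (le_of_mul_le_mul_left f1 (Real.exp_pos _)).trans ?_
    rw [← Real.exp_add, ← Real.exp_add]
    refine Real.exp_le_exp.mpr ?_
    linarith [b1.2]
  rcases le_total 0 (la g i - la g j) with h | h
  · rw [abs_of_nonneg h, neg_sub]; exact c1
  · rw [abs_of_nonpos h, neg_neg]; exact c2

theorem right_kap_bd {g t : Matrix (Fin n) (Fin n) ℝ} (h1 : t.det ≠ 0) (h2 : g.det ≠ 0)
    (i j : Fin n) : |((kA (g * t))ᵀ * kA g) i j| ≤
      Real.exp (2 * lc t) * Real.exp (-|la g i - la g j|) := by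
  have hn : 0 < n := i.pos
  have a1 := isSVD h2
  have h3 := mul_det_ne h2 h1
  have a2 := isSVD h3
  obtain ⟨q1, q2⟩ := sqrt_hs_le_exp h1 hn
  have e1 := right_kap a1 a2 rfl i j
  have hg : g = (g * t) * t⁻¹ := by
    rw [Matrix.mul_assoc, mul_nonsing_inv _ (isUnit_iff_ne_zero.mpr h1), Matrix.mul_one]
  have e2 := right_kap a2 a1 hg j i
  have e3 : ((kA g)ᵀ * kA (g * t)) j i = ((kA (g * t))ᵀ * kA g) i j := by
    have : (kA g)ᵀ * kA (g * t) = ((kA (g * t))ᵀ * kA g)ᵀ := by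
      rw [transpose_mul, transpose_transpose]
    rw [this, transpose_apply]
  rw [e3] at e2
  have b1 := abs_le.mp (abs_la_right h1 h2 i)
  rw [← exp_la h3, ← exp_la h2] at e1 e2
  obtain ⟨x, hx⟩ : ∃ x, x = |((kA (g * t))ᵀ * kA g) i j| := ⟨_, rfl⟩
  rw [← hx] at e1 e2 ⊢
  have c1 : x ≤ Real.exp (2 * lc t) * Real.exp (la g j - la g i) := by
    have f1 : Real.exp (la (g * t) i) * x ≤ Real.exp (la (g * t) i) *
        (Real.exp (lc t) * Real.exp (la g j - la (g * t) i)) := by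
      refine e1.trans ?_
      calc Real.sqrt (hs t) * Real.exp (la g j) ≤ Real.exp (lc t) * Real.exp (la g j) :=
            mul_le_mul_of_nonneg_right q1 (Real.exp_pos _).le
        _ = _ := by rw [← Real.exp_add, ← Real.exp_add, ← Real.exp_add]; congr 1; ring
    refine (le_of_mul_le_mul_left f1 (Real.exp_pos _)).trans ?_
    rw [← Real.exp_add, ← Real.exp_add]
    refine Real.exp_le_exp.mpr ?_
    linarith [b1.1]
  have c2 : x ≤ Real.exp (2 * lc t) * Real.exp (la g i - la g j) := by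
    have f1 : Real.exp (la g j) * x ≤ Real.exp (la g j) *
        (Real.exp (lc t) * Real.exp (la (g * t) i - la g j)) := by
      refine e2.trans ?_
      calc Real.sqrt (hs t⁻¹) * Real.exp (la (g * t) i)
          ≤ Real.exp (lc t) * Real.exp (la (g * t) i) :=
            mul_le_mul_of_nonneg_right q2 (Real.exp_pos _).le
        _ = _ := by rw [← Real.exp_add, ← Real.exp_add, ← Real.exp_add]; congr 1; ring
    refine (le_of_mul_le_mul_left f1 (Real.exp_pos _)).trans ?_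
    rw [← Real.exp_add, ← Real.exp_add]
    refine Real.exp_le_exp.mpr ?_
    linarith [b1.2]
  rcases le_total 0 (la g i - la g j) with h | h
  · rw [abs_of_nonneg h, neg_sub]; exact c1
  · rw [abs_of_nonpos h, neg_neg]; exact c2

end kap

/-! ### The gauges -/

/-- The exponents of the gauge `f`. -/
noncomputable def uu (θ : Finset ℕ) (t : ℕ → ℝ) (g : Matrix (Fin n) (Fin n) ℝ) (l : ℕ) : ℝ :=
  if l ∈ θ then t l else gap l g

/-- The exponents of the gauge `f°`. -/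
def u0 (θ : Finset ℕ) (t : ℕ → ℝ) (l : ℕ) : ℝ := if l ∈ θ then t l else 0

/-- `f_t(g; b)`. -/
noncomputable def gf (θ : Finset ℕ) (t : ℕ → ℝ) (g b : Matrix (Fin n) (Fin n) ℝ) : ℝ :=
  wf (fun i => Real.exp (cum (uu θ t g) i)) ((kA g)ᵀ * b)

/-- `f°_t(g; b)`. -/
noncomputable def g0 (θ : Finset ℕ) (t : ℕ → ℝ) (g b : Matrix (Fin n) (Fin n) ℝ) : ℝ :=
  wf (fun i => Real.exp (cum (u0 θ t) i)) ((kA g)ᵀ * b)

theorem hs_kA {g : Matrix (Fin n) (Fin n) ℝ} (hg : g.det ≠ 0) (b : Matrix (Fin n) (Fin n) ℝ) :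
    hs ((kA g)ᵀ * b) = hs b :=
  hs_orth_mul _ (by rw [transpose_transpose]; exact (isSVD hg).o1')

theorem wf_ge_hs {D : Fin n → ℝ} {c : ℝ} (h : ∀ i, c ≤ D i) (b : Matrix (Fin n) (Fin n) ℝ) :
    c * hs b ≤ wf D b := by
  rw [← wf_one]
  have : wf (fun _ => c) b ≤ 1 * wf D b := wf_le (fun i => by rw [one_mul]; exact h i) b
  rw [one_mul] at this
  refine le_trans (le_of_eq ?_) this
  simp [wf, Finset.mul_sum]

theorem wf_le_hs {D : Fin n → ℝ} {C : ℝ} (h : ∀ i, D i ≤ C) (b : Matrix (Fin n) (Fin n) ℝ) :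
    wf D b ≤ C * hs b := by
  rw [← wf_one]
  exact wf_le (fun i => by rw [mul_one]; exact h i) b

theorem cum_nonneg {u : ℕ → ℝ} (h : ∀ l, 0 ≤ u l) (i : ℕ) : 0 ≤ cum u i :=
  Finset.sum_nonneg fun l _ => h l

theorem cum_le {u : ℕ → ℝ} {R : ℝ} (hR : 0 ≤ R) (i : Fin n)
    (h : ∀ l, l + 1 < n → u l ≤ R) : cum u i ≤ n * R := by
  calc cum u i ≤ ∑ _l ∈ Finset.range (i : ℕ), R :=
        Finset.sum_le_sum fun l hl => h l (by rw [Finset.mem_range] at hl; omega)
    _ = (i : ℕ) * R := by simp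
    _ ≤ n * R := mul_le_mul_of_nonneg_right (by exact_mod_cast i.2.le) hR

theorem abs_cum_le (u : ℕ → ℝ) (i : Fin n) : |cum u i| ≤ ∑ l ∈ Finset.range n, |u l| := by
  refine (Finset.abs_sum_le_sum_abs _ _).trans ?_
  refine Finset.sum_le_sum_of_subset_of_nonneg ?_ fun l _ _ => abs_nonneg _
  intro l hl
  rw [Finset.mem_range] at hl ⊢
  omega

/-- Lower bound of `f` with a constant depending on everything. -/
theorem gf_lo (θ : Finset ℕ) (t : ℕ → ℝ) {g : Matrix (Fin n) (Fin n) ℝ} (hg : g.det ≠ 0) :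
    ∃ c > 0, ∀ b : Matrix (Fin n) (Fin n) ℝ, c * hs b ≤ gf θ t g b := by
  refine ⟨Real.exp (-∑ l ∈ Finset.range n, |uu θ t g l|), Real.exp_pos _, fun b => ?_⟩
  rw [gf, ← hs_kA hg b]
  refine wf_ge_hs (fun i => Real.exp_le_exp.mpr ?_) _
  exact (abs_le.mp (abs_cum_le (uu θ t g) i)).1

theorem g0_lo (θ : Finset ℕ) (t : ℕ → ℝ) {g : Matrix (Fin n) (Fin n) ℝ} (hg : g.det ≠ 0) :
    ∃ c > 0, ∀ b : Matrix (Fin n) (Fin n) ℝ, c * hs b ≤ g0 θ t g b := by
  refine ⟨Real.exp (-∑ l ∈ Finset.range n, |u0 θ t l|), Real.exp_pos _, fun b => ?_⟩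
  rw [g0, ← hs_kA hg b]
  refine wf_ge_hs (fun i => Real.exp_le_exp.mpr ?_) _
  exact (abs_le.mp (abs_cum_le (u0 θ t) i)).1

/-- Uniform bounds of `f` when the gaps outside of `θ` are bounded. -/
theorem gf_bd {θ : Finset ℕ} {t : ℕ → ℝ} {g : Matrix (Fin n) (Fin n) ℝ} (hg : g.det ≠ 0)
    {R T : ℝ} (hR : ∀ j, j ∉ θ → j + 1 < n → gap j g ≤ R) (h0 : ∀ j ∈ θ, 0 ≤ t j)
    (hT : ∀ j ∈ θ, t j ≤ T) (b : Matrix (Fin n) (Fin n) ℝ) :
    hs b ≤ gf θ t g b ∧ gf θ t g b ≤ Real.exp (n * (|T| + |R|)) * hs b := by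
  have u1 : ∀ l, 0 ≤ uu θ t g l := by
    intro l
    unfold uu
    split_ifs with h
    · exact h0 l h
    · exact gap_nonneg hg l
  have u2 : ∀ l, l + 1 < n → uu θ t g l ≤ |T| + |R| := by
    intro l hl
    unfold uu
    split_ifs with h
    · exact (hT l h).trans ((le_abs_self T).trans (le_add_of_nonneg_right (abs_nonneg R)))
    · exact (hR l h hl).trans ((le_abs_self R).trans (le_add_of_nonneg_left (abs_nonneg T)))
  constructor
  · have := wf_ge_hs (D := fun i : Fin n => Real.exp (cum (uu θ t g) i)) (c := 1)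
      (fun i => Real.one_le_exp (cum_nonneg u1 i)) ((kA g)ᵀ * b)
    rwa [hs_kA hg, one_mul] at this
  · have := wf_le_hs (D := fun i : Fin n => Real.exp (cum (uu θ t g) i))
      (C := Real.exp (n * (|T| + |R|)))
      (fun i => Real.exp_le_exp.mpr (cum_le (by positivity) i u2)) ((kA g)ᵀ * b)
    rwa [hs_kA hg] at this

theorem g0_bd {θ : Finset ℕ} {t : ℕ → ℝ} {g : Matrix (Fin n) (Fin n) ℝ} (hg : g.det ≠ 0)
    {T : ℝ} (h0 : ∀ j ∈ θ, 0 ≤ t j) (hT : ∀ j ∈ θ, t j ≤ T)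
    (b : Matrix (Fin n) (Fin n) ℝ) :
    hs b ≤ g0 θ t g b ∧ g0 θ t g b ≤ Real.exp (n * |T|) * hs b := by
  have u1 : ∀ l, 0 ≤ u0 θ t l := by
    intro l
    unfold u0
    split_ifs with h
    · exact h0 l h
    · exact le_rfl
  have u2 : ∀ l, l + 1 < n → u0 θ t l ≤ |T| := by
    intro l hl
    unfold u0
    split_ifs with h
    · exact (hT l h).trans (le_abs_self T)
    · exact abs_nonneg T
  constructor
  · have := wf_ge_hs (D := fun i : Fin n => Real.exp (cum (u0 θ t) i)) (c := 1)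
      (fun i => Real.one_le_exp (cum_nonneg u1 i)) ((kA g)ᵀ * b)
    rwa [hs_kA hg, one_mul] at this
  · have := wf_le_hs (D := fun i : Fin n => Real.exp (cum (u0 θ t) i))
      (C := Real.exp (n * |T|))
      (fun i => Real.exp_le_exp.mpr (cum_le (abs_nonneg T) i u2)) ((kA g)ᵀ * b)
    rwa [hs_kA hg] at this

theorem cum_shift {θ : Finset ℕ} {u u' : ℕ → ℝ} {d : ℕ → ℝ} (i : ℕ)
    (h : ∀ l, u' l ≤ u l + if l ∈ θ then |d l| else 0) :
    cum u' i ≤ (∑ j ∈ θ, |d j|) + cum u i := by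
  calc cum u' i ≤ ∑ l ∈ Finset.range i, (u l + if l ∈ θ then |d l| else 0) :=
        Finset.sum_le_sum fun l _ => h l
    _ = cum u i + ∑ l ∈ Finset.range i, (if l ∈ θ then |d l| else 0) :=
        Finset.sum_add_distrib
    _ ≤ cum u i + ∑ j ∈ θ, |d j| := by
        refine add_le_add le_rfl ?_
        rw [← Finset.sum_filter]
        refine Finset.sum_le_sum_of_subset_of_nonneg (fun l hl => ?_) fun l _ _ => abs_nonneg _
        exact (Finset.mem_filter.mp hl).2
    _ = _ := add_comm _ _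

/-- Lipschitz property in `t`. -/
theorem gf_lip (θ : Finset ℕ) (t d : ℕ → ℝ) (g b : Matrix (Fin n) (Fin n) ℝ) :
    gf θ (fun j => t j + d j) g b ≤ Real.exp (∑ j ∈ θ, |d j|) * gf θ t g b := by
  unfold gf
  refine wf_le (fun i => ?_) _
  rw [← Real.exp_add]
  refine Real.exp_le_exp.mpr (cum_shift i fun l => ?_)
  unfold uu
  split_ifs with h
  · exact add_le_add le_rfl (le_abs_self _)
  · rw [add_zero]

theorem g0_lip (θ : Finset ℕ) (t d : ℕ → ℝ) (g b : Matrix (Fin n) (Fin n) ℝ) :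
    g0 θ (fun j => t j + d j) g b ≤ Real.exp (∑ j ∈ θ, |d j|) * g0 θ t g b := by
  unfold g0
  refine wf_le (fun i => ?_) _
  rw [← Real.exp_add]
  refine Real.exp_le_exp.mpr (cum_shift i fun l => ?_)
  unfold u0
  split_ifs with h
  · exact add_le_add le_rfl (le_abs_self _)
  · rw [add_zero]

/-- Comparison of the two gauges. -/
theorem gf_g0 {θ : Finset ℕ} {t : ℕ → ℝ} {g : Matrix (Fin n) (Fin n) ℝ} (hg : g.det ≠ 0)
    {R : ℝ} (hR : ∀ j, j ∉ θ → j + 1 < n → gap j g ≤ R) (b : Matrix (Fin n) (Fin n) ℝ) :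
    g0 θ t g b ≤ gf θ t g b ∧ gf θ t g b ≤ Real.exp (n * |R|) * g0 θ t g b := by
  have e : ∀ i : Fin n, cum (uu θ t g) i = cum (u0 θ t) i +
      cum (fun l => if l ∈ θ then 0 else gap l g) i := by
    intro i
    unfold cum
    rw [← Finset.sum_add_distrib]
    refine Finset.sum_congr rfl fun l _ => ?_
    unfold uu u0
    split_ifs <;> simp
  constructor
  · have := wf_le (D := fun i : Fin n => Real.exp (cum (u0 θ t) i))
      (D' := fun i : Fin n => Real.exp (cum (uu θ t g) i)) (C := 1) (fun i => by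
        rw [one_mul, e]
        refine Real.exp_le_exp.mpr (le_add_of_nonneg_right (cum_nonneg (fun l => ?_) i))
        split_ifs
        · exact le_rfl
        · exact gap_nonneg hg l) ((kA g)ᵀ * b)
    rwa [one_mul] at this
  · refine wf_le (fun i => ?_) _
    rw [e, ← Real.exp_add, add_comm]
    refine Real.exp_le_exp.mpr (add_le_add ?_ le_rfl)
    refine cum_le (abs_nonneg R) i fun l hl => ?_
    split_ifs with h
    · exact abs_nonneg R
    · exact (hR l h hl).trans (le_abs_self R)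

/-! ### Left equivariance and right invariance -/

/-- The exponents in the coordinates `kB g * g⁻¹ * b`. -/
noncomputable def vv (θ : Finset ℕ) (t : ℕ → ℝ) (g : Matrix (Fin n) (Fin n) ℝ) (l : ℕ) : ℝ :=
  if l ∈ θ then t l - gap l g else 0

theorem gf_eq (θ : Finset ℕ) (t : ℕ → ℝ) {g : Matrix (Fin n) (Fin n) ℝ} (hg : g.det ≠ 0)
    (b : Matrix (Fin n) (Fin n) ℝ) :
    gf θ t g b = Real.exp (2 * la g 0) *
      wf (fun i => Real.exp (cum (vv θ t g) i)) (kB g * (g⁻¹ * b)) := by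
  have h := isSVD hg
  have hu : IsUnit g.det := isUnit_iff_ne_zero.mpr hg
  have e1 : (kA g)ᵀ * b = diagonal (sv g) * (kB g * (g⁻¹ * b)) := by
    have : (kA g)ᵀ * g = diagonal (sv g) * kB g := by
      have h' : (kA g)ᵀ * g = (kA g)ᵀ * (kA g * diagonal (sv g) * kB g) :=
        congrArg (fun x => (kA g)ᵀ * x) h.eq
      rw [h', ← Matrix.mul_assoc, ← Matrix.mul_assoc, h.o1, Matrix.one_mul]
    calc (kA g)ᵀ * b = (kA g)ᵀ * g * (g⁻¹ * b) := by
          rw [Matrix.mul_assoc, ← Matrix.mul_assoc g, mul_nonsing_inv _ hu, Matrix.one_mul]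
      _ = _ := by rw [this, Matrix.mul_assoc]
  unfold gf wf
  rw [e1, Finset.mul_sum]
  refine Finset.sum_congr rfl fun i _ => ?_
  rw [Finset.mul_sum, Finset.mul_sum, Finset.mul_sum]
  refine Finset.sum_congr rfl fun c _ => ?_
  rw [diagonal_mul, mul_pow]
  have e2 : cum (uu θ t g) i = 2 * (la g 0 - la g i) + cum (vv θ t g) i := by
    have hs := sum_gap g (Nat.zero_le (i : ℕ)) i.2
    rw [← Finset.range_eq_Ico] at hs
    rw [← hs]
    unfold cum
    rw [← Finset.sum_add_distrib]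
    refine Finset.sum_congr rfl fun l _ => ?_
    unfold uu vv
    split_ifs <;> ring
  have e4 : sv g i = Real.exp (la g i) := (exp_la hg i).symm
  change Real.exp (cum (uu θ t g) i) * _ = Real.exp (2 * la g 0) * (Real.exp (cum (vv θ t g) i) * _)
  rw [e2, e4]
  have e3 : Real.exp (2 * (la g 0 - la g i) + cum (vv θ t g) i) * Real.exp (la g i) ^ 2 =
      Real.exp (2 * la g 0) * Real.exp (cum (vv θ t g) i) := by
    rw [← Real.exp_nat_mul, ← Real.exp_add, ← Real.exp_add]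
    congr 1
    push_cast
    ring
  calc _ = (Real.exp (2 * (la g 0 - la g i) + cum (vv θ t g) i) * Real.exp (la g i) ^ 2) *
        (kB g * (g⁻¹ * b)) i c ^ 2 := by ring
    _ = _ := by rw [e3]; ring

/-- The key estimate for pairs of indices. -/
theorem pair_est {θ : Finset ℕ} {t : ℕ → ℝ} {g : Matrix (Fin n) (Fin n) ℝ} (hg : g.det ≠ 0)
    {L R K η : ℝ} (hη : 0 < η) (_hK : 0 ≤ K) (hL : ∀ l ∈ θ, L ≤ t l) (hL0 : 0 ≤ L)
    (hR : ∀ l ∈ θ, t l ≤ gap l g) (hR' : ∀ l ∈ θ, R ≤ gap l g) (hKL : K ≤ η * Real.exp (L / 2))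
    (hKR : K ≤ η * Real.exp (R / 2)) {i j : ℕ} (hij : i ≤ j) (hj : j < n)
    (hne : ∃ l ∈ Finset.Ico i j, l ∈ θ) :
    Real.exp (cum (vv θ t g) i / 2) * (K * Real.exp (-|la g i - la g j|)) ≤
      η * Real.exp (cum (vv θ t g) j / 2) ∧
    Real.exp (cum (vv θ t g) j / 2) * (K * Real.exp (-|la g i - la g j|)) ≤
      η * Real.exp (cum (vv θ t g) i / 2) := by
  have h0 : 0 ≤ la g i - la g j := by linarith [la_anti hg hij hj]
  have hla : la g i - la g j = (∑ l ∈ Finset.Ico i j, gap l g) / 2 := by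
    rw [sum_gap g hij hj]; ring
  obtain ⟨A, hA⟩ : ∃ A, A = ∑ l ∈ (Finset.Ico i j).filter (· ∈ θ), gap l g := ⟨_, rfl⟩
  obtain ⟨B, hB⟩ : ∃ B, B = ∑ l ∈ (Finset.Ico i j).filter (· ∈ θ), t l := ⟨_, rfl⟩
  have hc : cum (vv θ t g) j - cum (vv θ t g) i = B - A := by
    rw [cum_sub hij, hA, hB, ← Finset.sum_sub_distrib, Finset.sum_filter]
    exact Finset.sum_congr rfl fun l _ => rfl
  have hAle : A ≤ ∑ l ∈ Finset.Ico i j, gap l g := by
    rw [hA]
    exact Finset.sum_le_sum_of_subset_of_nonneg (Finset.filter_subset _ _)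
      fun l _ _ => gap_nonneg hg l
  obtain ⟨l0, hl0, hl0θ⟩ := hne
  have hl0m : l0 ∈ (Finset.Ico i j).filter (· ∈ θ) := Finset.mem_filter.mpr ⟨hl0, hl0θ⟩
  have hBL : L ≤ B := by
    rw [hB]
    refine (hL l0 hl0θ).trans (Finset.single_le_sum (f := t) (fun l hl => ?_) hl0m)
    exact hL0.trans (hL l (Finset.mem_filter.mp hl).2)
  have hAR : R ≤ A := by
    rw [hA]
    exact (hR' l0 hl0θ).trans (Finset.single_le_sum (f := fun l => gap l g)
      (fun l _ => gap_nonneg hg l) hl0m)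
  have hBA : B ≤ A := by
    rw [hA, hB]
    exact Finset.sum_le_sum fun l hl => hR l (Finset.mem_filter.mp hl).2
  have hE : Real.exp (-|la g i - la g j|) ≤ Real.exp (-A / 2) := by
    rw [abs_of_nonneg h0, hla]
    exact Real.exp_le_exp.mpr (by linarith)
  constructor
  · calc Real.exp (cum (vv θ t g) i / 2) * (K * Real.exp (-|la g i - la g j|))
        ≤ Real.exp (cum (vv θ t g) i / 2) * (η * Real.exp (L / 2) * Real.exp (-A / 2)) := by
          refine mul_le_mul_of_nonneg_left ?_ (Real.exp_pos _).le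
          exact mul_le_mul hKL hE (Real.exp_pos _).le (by positivity)
      _ = η * Real.exp (cum (vv θ t g) i / 2 + L / 2 - A / 2) := by
          rw [show cum (vv θ t g) i / 2 + L / 2 - A / 2 =
            cum (vv θ t g) i / 2 + (L / 2 + (-A / 2)) by ring, Real.exp_add, Real.exp_add]
          ring
      _ ≤ η * Real.exp (cum (vv θ t g) j / 2) := by
          refine mul_le_mul_of_nonneg_left (Real.exp_le_exp.mpr ?_) hη.le
          linarith
  · calc Real.exp (cum (vv θ t g) j / 2) * (K * Real.exp (-|la g i - la g j|))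
        ≤ Real.exp (cum (vv θ t g) j / 2) * (η * Real.exp (R / 2) * Real.exp (-A / 2)) := by
          refine mul_le_mul_of_nonneg_left ?_ (Real.exp_pos _).le
          exact mul_le_mul hKR hE (Real.exp_pos _).le (by positivity)
      _ = η * Real.exp (cum (vv θ t g) j / 2 + R / 2 - A / 2) := by
          rw [show cum (vv θ t g) j / 2 + R / 2 - A / 2 =
            cum (vv θ t g) j / 2 + (R / 2 + (-A / 2)) by ring, Real.exp_add, Real.exp_add]
          ring
      _ ≤ η * Real.exp (cum (vv θ t g) i / 2) := by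
          refine mul_le_mul_of_nonneg_left (Real.exp_le_exp.mpr ?_) hη.le
          linarith

theorem sqrt_exp (x : ℝ) : Real.sqrt (Real.exp x) = Real.exp (x / 2) := by
  rw [Real.sqrt_eq_iff_mul_self_eq (Real.exp_pos _).le (Real.exp_pos _).le, ← Real.exp_add]
  congr 1
  ring

/-- Left equivariance of `f`. -/
theorem gf_left {θ : Finset ℕ} {s : Matrix (Fin n) (Fin n) ℝ} (h1 : s.det ≠ 0) {ρ : ℝ}
    (hρ : 0 < ρ) : ∃ L : ℝ, ∀ T : ℝ, ∃ R : ℝ, ∀ g : Matrix (Fin n) (Fin n) ℝ, g.det ≠ 0 →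
      (∀ j ∈ θ, R ≤ gap j g) → ∀ t : ℕ → ℝ, (∀ j ∈ θ, L ≤ t j ∧ t j ≤ T) →
      ∀ b : Matrix (Fin n) (Fin n) ℝ,
      |Real.exp (2 * la g 0 - 2 * la (s * g) 0) *
        gf θ (fun j => t j + (gap j (s * g) - gap j g)) (s * g) (s * b) - gf θ t g b| ≤
        ρ * gf θ t g b := by
  obtain ⟨η, hη⟩ : ∃ η, η = min 1 (ρ / (2 * (n + 1) ^ 2)) := ⟨_, rfl⟩
  have hη0 : 0 < η := by rw [hη]; positivity
  have hη1 : η ≤ 1 := by rw [hη]; exact min_le_left _ _
  have hηρ : 2 * (n : ℝ) ^ 2 * η ≤ ρ := by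
    have : η ≤ ρ / (2 * (n + 1) ^ 2) := by rw [hη]; exact min_le_right _ _
    calc 2 * (n : ℝ) ^ 2 * η ≤ 2 * ((n : ℝ) + 1) ^ 2 * (ρ / (2 * (n + 1) ^ 2)) := by
          have hn : (0 : ℝ) ≤ n := Nat.cast_nonneg n
          refine mul_le_mul ?_ this hη0.le (by positivity)
          nlinarith
      _ = ρ := by field_simp
  obtain ⟨K, hK⟩ : ∃ K, K = Real.exp (2 * lc s) := ⟨_, rfl⟩
  have hK0 : 0 < K := by rw [hK]; exact Real.exp_pos _
  obtain ⟨L, hL0, hKL⟩ : ∃ L : ℝ, 0 ≤ L ∧ K ≤ η * Real.exp (L / 2) := by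
    refine ⟨2 * |Real.log (K / η)|, by positivity, ?_⟩
    have : K / η ≤ Real.exp (2 * |Real.log (K / η)| / 2) := by
      rw [mul_div_cancel_left₀ _ (two_ne_zero)]
      conv_lhs => rw [← Real.exp_log (div_pos hK0 hη0)]
      exact Real.exp_le_exp.mpr (le_abs_self _)
    rw [div_le_iff₀ hη0] at this
    linarith [mul_comm η (Real.exp (2 * |Real.log (K / η)| / 2))]
  refine ⟨L, fun T => ⟨max L T, fun g h2 hR t ht b => ?_⟩⟩
  have h3 := mul_det_ne h1 h2
  have a1 := isSVD h2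
  have a2 := isSVD h3
  have o := orth_mul_tr a1.o2' a2.o2' a1.o2 a2.o2
  obtain ⟨Z, hZ⟩ : ∃ Z, Z = kB g * (g⁻¹ * b) := ⟨_, rfl⟩
  obtain ⟨q, hq⟩ : ∃ q : Fin n → ℝ, q = fun i : Fin n => Real.exp (cum (vv θ t g) (i : ℕ)) := ⟨_, rfl⟩
  have e1 : gf θ t g b = Real.exp (2 * la g 0) * wf q Z := by rw [gf_eq θ t h2, hZ, hq]
  have e2 : gf θ (fun j => t j + (gap j (s * g) - gap j g)) (s * g) (s * b) =
      Real.exp (2 * la (s * g) 0) * wf q ((kB (s * g) * (kB g)ᵀ) * Z) := by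
    rw [gf_eq _ _ h3, hq, hZ]
    congr 2
    · funext i
      congr 1
      unfold cum
      refine Finset.sum_congr rfl fun l _ => ?_
      unfold vv
      split_ifs
      · ring
      · rfl
    · have hu : IsUnit s.det := isUnit_iff_ne_zero.mpr h1
      rw [Matrix.mul_inv_rev]
      calc kB (s * g) * (g⁻¹ * s⁻¹ * (s * b)) = kB (s * g) * (g⁻¹ * ((s⁻¹ * s) * b)) := by
            simp only [Matrix.mul_assoc]
        _ = kB (s * g) * (g⁻¹ * b) := by rw [nonsing_inv_mul _ hu, Matrix.one_mul]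
        _ = kB (s * g) * ((kB g)ᵀ * kB g) * (g⁻¹ * b) := by rw [a1.o2, Matrix.mul_one]
        _ = _ := by simp only [Matrix.mul_assoc]
  have e3 : Real.exp (2 * la g 0 - 2 * la (s * g) 0) *
      (Real.exp (2 * la (s * g) 0) * wf q ((kB (s * g) * (kB g)ᵀ) * Z)) =
      Real.exp (2 * la g 0) * wf q ((kB (s * g) * (kB g)ᵀ) * Z) := by
    rw [← mul_assoc, ← Real.exp_add]
    congr 2
    ring
  rw [e1, e2, e3, ← mul_sub, abs_mul, abs_of_pos (Real.exp_pos _)]
  have key : |wf q ((kB (s * g) * (kB g)ᵀ) * Z) - wf q Z| ≤ 2 * n ^ 2 * η * wf q Z := by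
    refine wf_compare o.1 o.2 (fun i => by rw [hq]; exact Real.exp_pos _) hη0.le hη1 ?_ Z
    intro i j hij
    have hb := left_kap_bd h1 h2 i j
    rw [← hK] at hb
    have hsq : ∀ i : Fin n, Real.sqrt (q i) = Real.exp (cum (vv θ t g) i / 2) := fun i => by
      rw [hq]; exact sqrt_exp _
    rw [hsq, hsq]
    have hex : ∀ i j : Fin n, i ≤ j → q i ≠ q j → ∃ l ∈ Finset.Ico (i : ℕ) j, l ∈ θ := by
      intro i j hle hne
      by_contra hcon
      push Not at hcon
      refine hne ?_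
      rw [hq]
      have : cum (vv θ t g) j - cum (vv θ t g) i = 0 := by
        rw [cum_sub hle]
        refine Finset.sum_eq_zero fun l hl => ?_
        unfold vv
        rw [if_neg (hcon l hl)]
      simp only
      rw [sub_eq_zero.mp this]
    have pe : ∀ i j : Fin n, i ≤ j → q i ≠ q j →
        Real.exp (cum (vv θ t g) i / 2) * (K * Real.exp (-|la g i - la g j|)) ≤
          η * Real.exp (cum (vv θ t g) j / 2) ∧
        Real.exp (cum (vv θ t g) j / 2) * (K * Real.exp (-|la g i - la g j|)) ≤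
          η * Real.exp (cum (vv θ t g) i / 2) := fun i j hle hne =>
      pair_est h2 (L := L) (R := L) hη0 hK0.le (fun l hl => (ht l hl).1) hL0
        (fun l hl => ((ht l hl).2.trans (le_max_right _ _)).trans (hR l hl))
        (fun l hl => (le_max_left _ _).trans (hR l hl)) hKL hKL hle j.2 (hex i j hle hne)
    rcases le_total i j with hle | hle
    · obtain ⟨p1, p2⟩ := pe i j hle hij
      exact ⟨(mul_le_mul_of_nonneg_left hb (Real.exp_pos _).le).trans p1,
        (mul_le_mul_of_nonneg_left hb (Real.exp_pos _).le).trans p2⟩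
    · obtain ⟨p1, p2⟩ := pe j i hle (Ne.symm hij)
      rw [abs_sub_comm] at p1 p2
      exact ⟨(mul_le_mul_of_nonneg_left hb (Real.exp_pos _).le).trans p2,
        (mul_le_mul_of_nonneg_left hb (Real.exp_pos _).le).trans p1⟩
  calc Real.exp (2 * la g 0) * |wf q ((kB (s * g) * (kB g)ᵀ) * Z) - wf q Z|
      ≤ Real.exp (2 * la g 0) * (2 * n ^ 2 * η * wf q Z) :=
        mul_le_mul_of_nonneg_left key (Real.exp_pos _).le
    _ ≤ Real.exp (2 * la g 0) * (ρ * wf q Z) := by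
        refine mul_le_mul_of_nonneg_left ?_ (Real.exp_pos _).le
        exact mul_le_mul_of_nonneg_right hηρ
          (wf_nonneg (fun i => by rw [hq]; exact (Real.exp_pos _).le) Z)
    _ = ρ * (Real.exp (2 * la g 0) * wf q Z) := by ring

/-- Right invariance of `f°`. -/
theorem g0_right {θ : Finset ℕ} {u : Matrix (Fin n) (Fin n) ℝ} (h1 : u.det ≠ 0) {T ρ : ℝ}
    (hρ : 0 < ρ) : ∃ R : ℝ, ∀ g : Matrix (Fin n) (Fin n) ℝ, g.det ≠ 0 →
      (∀ j ∈ θ, R ≤ gap j g) → ∀ t : ℕ → ℝ, (∀ j ∈ θ, 0 ≤ t j ∧ t j ≤ T) →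
      ∀ b : Matrix (Fin n) (Fin n) ℝ, |g0 θ t (g * u) b - g0 θ t g b| ≤ ρ * g0 θ t g b := by
  obtain ⟨η, hη⟩ : ∃ η, η = min 1 (ρ / (2 * (n + 1) ^ 2)) := ⟨_, rfl⟩
  have hη0 : 0 < η := by rw [hη]; positivity
  have hη1 : η ≤ 1 := by rw [hη]; exact min_le_left _ _
  have hηρ : 2 * (n : ℝ) ^ 2 * η ≤ ρ := by
    have : η ≤ ρ / (2 * (n + 1) ^ 2) := by rw [hη]; exact min_le_right _ _
    calc 2 * (n : ℝ) ^ 2 * η ≤ 2 * ((n : ℝ) + 1) ^ 2 * (ρ / (2 * (n + 1) ^ 2)) := by
          have hn : (0 : ℝ) ≤ n := Nat.cast_nonneg n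
          refine mul_le_mul ?_ this hη0.le (by positivity)
          nlinarith
      _ = ρ := by field_simp
  obtain ⟨K, hK⟩ : ∃ K, K = Real.exp (2 * lc u) := ⟨_, rfl⟩
  have hK0 : 0 < K := by rw [hK]; exact Real.exp_pos _
  obtain ⟨K', hK'⟩ : ∃ K', K' = K * Real.exp (n * |T| / 2) / η := ⟨_, rfl⟩
  have hK'0 : 0 < K' := by rw [hK']; positivity
  refine ⟨2 * |Real.log K'|, fun g h2 hR t ht b => ?_⟩
  have hexp : K' ≤ Real.exp (2 * |Real.log K'| / 2) := by
    rw [mul_div_cancel_left₀ _ (two_ne_zero)]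
    conv_lhs => rw [← Real.exp_log hK'0]
    exact Real.exp_le_exp.mpr (le_abs_self _)
  have h3 := mul_det_ne h2 h1
  have a1 := isSVD h2
  have a2 := isSVD h3
  have o := orth_tr_mul a1.o1' a2.o1' a1.o1 a2.o1
  obtain ⟨Z, hZ⟩ : ∃ Z, Z = (kA g)ᵀ * b := ⟨_, rfl⟩
  obtain ⟨q, hq⟩ : ∃ q : Fin n → ℝ, q = fun i : Fin n => Real.exp (cum (u0 θ t) (i : ℕ)) := ⟨_, rfl⟩
  have e1 : g0 θ t g b = wf q Z := by rw [hZ, hq]; rfl
  have e2 : g0 θ t (g * u) b = wf q (((kA (g * u))ᵀ * kA g) * Z) := by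
    rw [hZ, hq]
    unfold g0
    congr 1
    rw [← Matrix.mul_assoc, Matrix.mul_assoc _ (kA g), a1.o1', Matrix.mul_one]
  rw [e1, e2]
  have u1 : ∀ l, 0 ≤ u0 θ t l := by
    intro l
    unfold u0
    split_ifs with h
    · exact (ht l h).1
    · exact le_rfl
  have u2 : ∀ l, l + 1 < n → u0 θ t l ≤ |T| := by
    intro l hl
    unfold u0
    split_ifs with h
    · exact (ht l h).2.trans (le_abs_self T)
    · exact abs_nonneg T
  have key : |wf q (((kA (g * u))ᵀ * kA g) * Z) - wf q Z| ≤ 2 * n ^ 2 * η * wf q Z := by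
    refine wf_compare o.1 o.2 (fun i => by rw [hq]; exact Real.exp_pos _) hη0.le hη1 ?_ Z
    have hex : ∀ i j : Fin n, i ≤ j → q i ≠ q j →
        |Real.log K'| ≤ |la g i - la g j| := by
      intro i j hle hne
      have : ∃ l ∈ Finset.Ico (i : ℕ) j, l ∈ θ := by
        by_contra hcon
        push Not at hcon
        refine hne ?_
        rw [hq]
        have : cum (u0 θ t) j - cum (u0 θ t) i = 0 := by
          rw [cum_sub hle]
          refine Finset.sum_eq_zero fun l hl => ?_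
          unfold u0
          rw [if_neg (hcon l hl)]
        simp only
        rw [sub_eq_zero.mp this]
      obtain ⟨l, hl, hlθ⟩ := this
      have h4 := sum_gap g hle j.2
      have h5 : gap l g ≤ ∑ l ∈ Finset.Ico (i : ℕ) j, gap l g :=
        Finset.single_le_sum (f := fun l => gap l g) (fun l _ => gap_nonneg h2 l) hl
      have h6 := hR l hlθ
      refine le_trans ?_ (le_abs_self _)
      linarith
    intro i j hij
    have hla : |Real.log K'| ≤ |la g i - la g j| := by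
      rcases le_total i j with hle | hle
      · exact hex i j hle hij
      · rw [abs_sub_comm]; exact hex j i hle (Ne.symm hij)
    have hb := right_kap_bd h1 h2 i j
    rw [← hK] at hb
    have hb2 : |((kA (g * u))ᵀ * kA g) i j| ≤ η * Real.exp (-(n * |T|) / 2) := by
      refine hb.trans ?_
      have h7 : Real.exp (-|la g i - la g j|) ≤ K'⁻¹ := by
        have : Real.exp (-|la g i - la g j|) ≤ Real.exp (-|Real.log K'|) :=
          Real.exp_le_exp.mpr (by linarith)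
        refine this.trans ?_
        rw [Real.exp_neg]
        refine inv_anti₀ hK'0 ?_
        rwa [mul_div_cancel_left₀ _ (two_ne_zero)] at hexp
      calc K * Real.exp (-|la g i - la g j|) ≤ K * K'⁻¹ :=
            mul_le_mul_of_nonneg_left h7 hK0.le
        _ = η * Real.exp (-(n * |T|) / 2) := by
            rw [hK', neg_div, Real.exp_neg]
            field_simp
    have hsq : ∀ i : Fin n, Real.sqrt (q i) = Real.exp (cum (u0 θ t) i / 2) := fun i => by
      rw [hq]; exact sqrt_exp _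
    have hgen : ∀ i' j' : Fin n, Real.sqrt (q i') * |((kA (g * u))ᵀ * kA g) i j| ≤
        η * Real.sqrt (q j') := by
      intro i' j'
      rw [hsq, hsq]
      calc Real.exp (cum (u0 θ t) i' / 2) * |((kA (g * u))ᵀ * kA g) i j|
          ≤ Real.exp (n * |T| / 2) * (η * Real.exp (-(n * |T|) / 2)) := by
            refine mul_le_mul ?_ hb2 (abs_nonneg _) (Real.exp_pos _).le
            refine Real.exp_le_exp.mpr ?_
            have := cum_le (abs_nonneg T) i' u2
            linarith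
        _ = η * 1 := by
            rw [mul_left_comm, ← Real.exp_add]
            congr 1
            rw [← Real.exp_zero]
            congr 1
            ring
        _ ≤ η * Real.exp (cum (u0 θ t) j' / 2) := by
            refine mul_le_mul_of_nonneg_left ?_ hη0.le
            refine Real.one_le_exp ?_
            have := cum_nonneg u1 (j' : ℕ)
            linarith
    exact ⟨hgen i j, hgen j i⟩
  refine key.trans (mul_le_mul_of_nonneg_right hηρ ?_)
  exact wf_nonneg (fun i => by rw [hq]; exact (Real.exp_pos _).le) Z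

end Vale.Agent.P092.H944
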