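import Vale.Agent.P092.H944.SVD

/-!
P092 (helper944), rank theorem: the orthogonal matrix comparing the singular value decompositions
of `g` and of `s g` (or `g t`), and the comparison lemma for weighted quadratic forms.
-/

namespace Vale.Agent.P092.H944

open Matrix

variable {n : ℕ}

lemma orth_row {κ : Matrix (Fin n) (Fin n) ℝ} (h : κ * κᵀ = 1) (i : Fin n) :
    ∑ j, κ i j ^ 2 = 1 := by
  have := congrFun (congrFun h i) i
  rw [Matrix.mul_apply, one_apply_eq] at this
  rw [← this]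
  exact Finset.sum_congr rfl fun j _ => by rw [transpose_apply, sq]

lemma orth_col {κ : Matrix (Fin n) (Fin n) ℝ} (h : κᵀ * κ = 1) (j : Fin n) :
    ∑ i, κ i j ^ 2 = 1 := by
  have := orth_row (κ := κᵀ) (by rwa [transpose_transpose]) j
  simpa [transpose_apply] using this

lemma orth_abs_le {κ : Matrix (Fin n) (Fin n) ℝ} (h : κ * κᵀ = 1) (i j : Fin n) :
    |κ i j| ≤ 1 := by
  have h1 := orth_row h i
  have h2 : κ i j ^ 2 ≤ ∑ j, κ i j ^ 2 :=
    Finset.single_le_sum (f := fun j => κ i j ^ 2) (fun j _ => sq_nonneg _) (Finset.mem_univ j)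
  rw [h1] at h2
  exact abs_le_one_iff_mul_self_le_one.mpr (by rwa [← sq])

/-- Dimension count: comparison of the singular values. -/
lemma sv_le_of_kap {κ : Matrix (Fin n) (Fin n) ℝ} (h : κ * κᵀ = 1) (h' : κᵀ * κ = 1)
    {a a' : Fin n → ℝ} (ha : ∀ i, 0 < a i) (ha' : ∀ i, 0 < a' i) (an : Antitone a)
    (an' : Antitone a') {C : ℝ} (hC : ∀ i j, a' i * |κ i j| ≤ C * a j) (i : Fin n) :
    a' i ≤ n * C * a i := by
  have hn : 0 < (n : ℝ) := by
    have := i.pos
    exact_mod_cast this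
  have hC0 : 0 ≤ C := by
    have h1 := hC i i
    have h2 : 0 ≤ a' i * |κ i i| := mul_nonneg (ha' i).le (abs_nonneg _)
    by_contra hneg
    have h3 : C * a i < 0 := mul_neg_of_neg_of_pos (lt_of_not_ge hneg) (ha i)
    linarith
  have hε : ∀ r ∈ Finset.Iic i, ∀ j ∈ Finset.Ici i, κ r j ^ 2 ≤ (C * a i / a' i) ^ 2 := by
    intro r hr j hj
    rw [Finset.mem_Iic] at hr
    rw [Finset.mem_Ici] at hj
    have h1 : a' i * |κ r j| ≤ C * a i := by
      calc a' i * |κ r j| ≤ a' r * |κ r j| :=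
            mul_le_mul_of_nonneg_right (an' hr) (abs_nonneg _)
        _ ≤ C * a j := hC r j
        _ ≤ C * a i := mul_le_mul_of_nonneg_left (an hj) hC0
    have h2 : |κ r j| ≤ C * a i / a' i := by
      rw [le_div_iff₀ (ha' i)]
      linarith [mul_comm (a' i) |κ r j|]
    rw [← sq_abs]
    exact pow_le_pow_left₀ (abs_nonneg _) h2 2
  have e1 : ∑ r ∈ Finset.Iic i, ∑ j, κ r j ^ 2 = (i : ℝ) + 1 := by
    rw [Finset.sum_congr rfl fun r _ => orth_row h r]
    simp
  have e2 : ∑ r ∈ Finset.Iic i, ∑ j, κ r j ^ 2 =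
      ∑ r ∈ Finset.Iic i, ∑ j ∈ Finset.Iio i, κ r j ^ 2 +
      ∑ r ∈ Finset.Iic i, ∑ j ∈ Finset.Ici i, κ r j ^ 2 := by
    rw [← Finset.sum_add_distrib]
    refine Finset.sum_congr rfl fun r _ => ?_
    rw [← Finset.sum_union]
    · congr 1
      ext j
      simp only [Finset.mem_univ, Finset.mem_union, Finset.mem_Iio, Finset.mem_Ici, true_iff]
      exact lt_or_ge j i
    · rw [Finset.disjoint_left]
      intro j hj hj'
      rw [Finset.mem_Iio] at hj
      rw [Finset.mem_Ici] at hj'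
      exact absurd hj (not_lt.mpr hj')
  have e3 : ∑ r ∈ Finset.Iic i, ∑ j ∈ Finset.Iio i, κ r j ^ 2 ≤ (i : ℝ) := by
    rw [Finset.sum_comm]
    calc ∑ j ∈ Finset.Iio i, ∑ r ∈ Finset.Iic i, κ r j ^ 2
        ≤ ∑ j ∈ Finset.Iio i, ∑ r, κ r j ^ 2 := by
          refine Finset.sum_le_sum fun j _ => ?_
          exact Finset.sum_le_sum_of_subset_of_nonneg (Finset.subset_univ _)
            fun r _ _ => sq_nonneg _
      _ = (i : ℝ) := by
          rw [Finset.sum_congr rfl fun j _ => orth_col h' j]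
          simp
  have e4 : ∑ r ∈ Finset.Iic i, ∑ j ∈ Finset.Ici i, κ r j ^ 2 ≤
      (n : ℝ) * (n * (C * a i / a' i) ^ 2) := by
    calc _ ≤ ∑ r ∈ Finset.Iic i, ∑ j ∈ Finset.Ici i, (C * a i / a' i) ^ 2 :=
          Finset.sum_le_sum fun r hr => Finset.sum_le_sum fun j hj => hε r hr j hj
      _ ≤ ∑ r : Fin n, ∑ j : Fin n, (C * a i / a' i) ^ 2 := by
          refine (Finset.sum_le_sum_of_subset_of_nonneg (Finset.subset_univ _)
            fun r _ _ => Finset.sum_nonneg fun j _ => sq_nonneg _).trans ?_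
          refine Finset.sum_le_sum fun r _ => ?_
          exact Finset.sum_le_sum_of_subset_of_nonneg (Finset.subset_univ _)
            fun j _ _ => sq_nonneg _
      _ = _ := by simp
  have e5 : 1 ≤ (n * (C * a i / a' i)) ^ 2 := by
    have : (n : ℝ) * (n * (C * a i / a' i) ^ 2) = (n * (C * a i / a' i)) ^ 2 := by ring
    rw [← this]
    linarith
  have e6 : 1 ≤ n * (C * a i / a' i) := by
    have h0 : 0 ≤ n * (C * a i / a' i) := by
      have := (ha i).le
      have := (ha' i).le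
      positivity
    exact (one_le_sq_iff₀ h0).mp e5
  rw [mul_div_assoc', le_div_iff₀ (ha' i)] at e6
  linarith

/-- Left multiplication. -/
lemma left_kap {s g g' k1 k2 k1' k2' : Matrix (Fin n) (Fin n) ℝ} {a a' : Fin n → ℝ}
    (hg : IsSVD g k1 a k2) (hg' : IsSVD g' k1' a' k2') (e : g' = s * g) (i j : Fin n) :
    a' i * |(k2' * k2ᵀ) i j| ≤ Real.sqrt (hs s) * a j := by
  have h1 : diagonal a' * (k2' * k2ᵀ) = (k1'ᵀ * s * k1) * diagonal a := by
    calc diagonal a' * (k2' * k2ᵀ) = k1'ᵀ * (k1' * diagonal a' * k2') * k2ᵀ := by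
          rw [← Matrix.mul_assoc, ← Matrix.mul_assoc, ← Matrix.mul_assoc, hg'.o1, Matrix.one_mul]
      _ = k1'ᵀ * (s * (k1 * diagonal a * k2)) * k2ᵀ := by rw [← hg'.eq, e, ← hg.eq]
      _ = (k1'ᵀ * s * k1) * diagonal a * (k2 * k2ᵀ) := by simp only [Matrix.mul_assoc]
      _ = _ := by rw [hg.o2', Matrix.mul_one]
  have h2 := congrFun (congrFun h1 i) j
  rw [diagonal_mul, mul_diagonal] at h2
  have h3 : a' i * |(k2' * k2ᵀ) i j| = |(k1'ᵀ * s * k1) i j| * a j := by
    rw [← abs_of_pos (hg'.pos i), ← abs_mul, h2, abs_mul, abs_of_pos (hg.pos j)]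
  rw [h3]
  refine mul_le_mul_of_nonneg_right ?_ (hg.pos j).le
  refine (abs_entry_le _ i j).trans (Real.sqrt_le_sqrt (le_of_eq ?_))
  rw [hs_mul_orth _ hg.o1', hs_orth_mul _ (by rw [transpose_transpose]; exact hg'.o1')]

/-- Right multiplication. -/
lemma right_kap {t g g' k1 k2 k1' k2' : Matrix (Fin n) (Fin n) ℝ} {a a' : Fin n → ℝ}
    (hg : IsSVD g k1 a k2) (hg' : IsSVD g' k1' a' k2') (e : g' = g * t) (i j : Fin n) :
    a' i * |(k1'ᵀ * k1) i j| ≤ Real.sqrt (hs t) * a j := by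
  have h1 : (k1ᵀ * k1') * diagonal a' = diagonal a * (k2 * t * k2'ᵀ) := by
    calc (k1ᵀ * k1') * diagonal a' = k1ᵀ * (k1' * diagonal a' * k2') * k2'ᵀ := by
          rw [show k1ᵀ * (k1' * diagonal a' * k2') * k2'ᵀ = k1ᵀ * k1' * diagonal a' * (k2' * k2'ᵀ)
            by simp only [Matrix.mul_assoc], hg'.o2', Matrix.mul_one]
      _ = k1ᵀ * (k1 * diagonal a * k2 * t) * k2'ᵀ := by rw [← hg'.eq, e, ← hg.eq]
      _ = (k1ᵀ * k1) * diagonal a * (k2 * t * k2'ᵀ) := by simp only [Matrix.mul_assoc]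
      _ = _ := by rw [hg.o1, Matrix.one_mul]
  have h2 := congrFun (congrFun h1 j) i
  rw [diagonal_mul, mul_diagonal] at h2
  have h4 : (k1'ᵀ * k1) i j = (k1ᵀ * k1') j i := by
    have : (k1'ᵀ * k1) = (k1ᵀ * k1')ᵀ := by rw [transpose_mul, transpose_transpose]
    rw [this, transpose_apply]
  have h3 : a' i * |(k1'ᵀ * k1) i j| = |(k2 * t * k2'ᵀ) j i| * a j := by
    rw [h4, ← abs_of_pos (hg'.pos i), ← abs_mul, mul_comm (a' i), h2, abs_mul,
      abs_of_pos (hg.pos j), mul_comm]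
  rw [h3]
  refine mul_le_mul_of_nonneg_right ?_ (hg.pos j).le
  refine (abs_entry_le _ j i).trans (Real.sqrt_le_sqrt (le_of_eq ?_))
  rw [hs_mul_orth _ (by rw [transpose_transpose]; exact hg'.o2), hs_orth_mul _ hg.o2]

lemma orth_mul_tr {k k' : Matrix (Fin n) (Fin n) ℝ} (h : k * kᵀ = 1) (h' : k' * k'ᵀ = 1)
    (h2 : kᵀ * k = 1) (h2' : k'ᵀ * k' = 1) :
    (k' * kᵀ) * (k' * kᵀ)ᵀ = 1 ∧ (k' * kᵀ)ᵀ * (k' * kᵀ) = 1 := by
  have e : (k' * kᵀ)ᵀ = k * k'ᵀ := by rw [transpose_mul, transpose_transpose]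
  rw [e]
  constructor
  · calc k' * kᵀ * (k * k'ᵀ) = k' * (kᵀ * k) * k'ᵀ := by simp only [Matrix.mul_assoc]
      _ = 1 := by rw [h2, Matrix.mul_one, h']
  · calc k * k'ᵀ * (k' * kᵀ) = k * (k'ᵀ * k') * kᵀ := by simp only [Matrix.mul_assoc]
      _ = 1 := by rw [h2', Matrix.mul_one, h]

/-- Comparison of the quadratic forms `∑ q_j z_j²` and `∑ q_j (κ z)_j²`. -/
lemma form_compare {κ : Matrix (Fin n) (Fin n) ℝ} (h : κ * κᵀ = 1) (h' : κᵀ * κ = 1)
    {q : Fin n → ℝ} (hq : ∀ i, 0 < q i) {η : ℝ} (hη0 : 0 ≤ η) (hη1 : η ≤ 1)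
    (hκ : ∀ i j, q i ≠ q j → Real.sqrt (q i) * |κ i j| ≤ η * Real.sqrt (q j) ∧
      Real.sqrt (q j) * |κ i j| ≤ η * Real.sqrt (q i)) (z : Fin n → ℝ) :
    |∑ i, q i * (κ.mulVec z i) ^ 2 - ∑ i, q i * z i ^ 2| ≤
      2 * n ^ 2 * η * ∑ i, q i * z i ^ 2 := by
  obtain ⟨r, hr⟩ : ∃ r : Fin n → ℝ, r = fun i => Real.sqrt (q i) := ⟨_, rfl⟩
  have r0 : ∀ i, 0 < r i := fun i => by rw [hr]; exact Real.sqrt_pos.mpr (hq i)
  have rq : ∀ i, r i * r i = q i := fun i => by rw [hr]; exact Real.mul_self_sqrt (hq i).le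
  have hκ1 : ∀ i j, q i ≠ q j → r i * |κ i j| ≤ η * r j := fun i j hij => by
    rw [hr]; exact (hκ i j hij).1
  have hκ2 : ∀ i j, q i ≠ q j → r j * |κ i j| ≤ η * r i := fun i j hij => by
    rw [hr]; exact (hκ i j hij).2
  have hκ3 : ∀ i j, r i * |κ i j| ≤ r j := by
    intro i j
    by_cases hij : q i = q j
    · have : r i = r j := by rw [hr]; simp only [hij]
      rw [this]
      have := orth_abs_le h i j
      have := (r0 j).le
      nlinarith
    · refine (hκ1 i j hij).trans ?_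
      have := (r0 j).le
      nlinarith
  -- the matrix of the difference
  have hM : ∀ l m : Fin n, |∑ i, κ i l * κ i m * (q i - q l)| ≤ 2 * n * η * (r l * r m) := by
    intro l m
    have hb : ∀ i, |κ i l * κ i m * (q i - q l)| ≤ 2 * η * (r l * r m) := by
      intro i
      by_cases hi : q i = q l
      · rw [hi, sub_self, mul_zero, abs_zero]
        have := (r0 l).le
        have := (r0 m).le
        positivity
      · have c1 : q i * (|κ i l| * |κ i m|) ≤ η * (r l * r m) := by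
          calc q i * (|κ i l| * |κ i m|) = (r i * |κ i l|) * (r i * |κ i m|) := by
                rw [← rq i]; ring
            _ ≤ (η * r l) * r m := by
                refine mul_le_mul (hκ1 i l hi) (hκ3 i m) ?_ ?_
                · exact mul_nonneg (r0 i).le (abs_nonneg _)
                · exact mul_nonneg hη0 (r0 l).le
            _ = η * (r l * r m) := by ring
        have c2 : q l * (|κ i l| * |κ i m|) ≤ η * (r l * r m) := by
          have : (r l * |κ i l|) * |κ i m| ≤ (η * r i) * |κ i m| :=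
            mul_le_mul_of_nonneg_right (hκ2 i l hi) (abs_nonneg _)
          calc q l * (|κ i l| * |κ i m|) = r l * ((r l * |κ i l|) * |κ i m|) := by
                rw [← rq l]; ring
            _ ≤ r l * ((η * r i) * |κ i m|) := mul_le_mul_of_nonneg_left this (r0 l).le
            _ = η * r l * (r i * |κ i m|) := by ring
            _ ≤ η * r l * r m := by
                refine mul_le_mul_of_nonneg_left (hκ3 i m) ?_
                exact mul_nonneg hη0 (r0 l).le
            _ = η * (r l * r m) := by ring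
        have c3 : |q i - q l| ≤ q i + q l := by
          rw [abs_le]
          constructor <;> linarith [hq i, hq l]
        rw [abs_mul, abs_mul]
        calc |κ i l| * |κ i m| * |q i - q l| ≤ |κ i l| * |κ i m| * (q i + q l) :=
              mul_le_mul_of_nonneg_left c3 (mul_nonneg (abs_nonneg _) (abs_nonneg _))
          _ = q i * (|κ i l| * |κ i m|) + q l * (|κ i l| * |κ i m|) := by ring
          _ ≤ η * (r l * r m) + η * (r l * r m) := add_le_add c1 c2
          _ = 2 * η * (r l * r m) := by ring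
    calc |∑ i, κ i l * κ i m * (q i - q l)| ≤ ∑ i, |κ i l * κ i m * (q i - q l)| :=
          Finset.abs_sum_le_sum_abs _ _
      _ ≤ ∑ _i : Fin n, 2 * η * (r l * r m) := Finset.sum_le_sum fun i _ => hb i
      _ = 2 * n * η * (r l * r m) := by simp; ring
  have hcol : ∀ l m : Fin n, ∑ i, κ i l * κ i m = if l = m then 1 else 0 := by
    intro l m
    have := congrFun (congrFun h' l) m
    rw [Matrix.mul_apply, one_apply] at this
    rw [← this]
    exact Finset.sum_congr rfl fun i _ => by rw [transpose_apply]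
  have key : ∑ i, q i * (κ.mulVec z i) ^ 2 - ∑ i, q i * z i ^ 2 =
      ∑ l, ∑ m, (∑ i, κ i l * κ i m * (q i - q l)) * (z l * z m) := by
    have e1 : ∀ i, q i * (κ.mulVec z i) ^ 2 = ∑ l, ∑ m, q i * (κ i l * κ i m) * (z l * z m) := by
      intro i
      have : κ.mulVec z i = ∑ l, κ i l * z l := rfl
      rw [this, sq, Finset.sum_mul_sum, Finset.mul_sum]
      refine Finset.sum_congr rfl fun l _ => ?_
      rw [Finset.mul_sum]
      exact Finset.sum_congr rfl fun m _ => by ring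
    have e2 : ∑ i, q i * (κ.mulVec z i) ^ 2 =
        ∑ l, ∑ m, (∑ i, q i * (κ i l * κ i m)) * (z l * z m) := by
      rw [Finset.sum_congr rfl fun i _ => e1 i, Finset.sum_comm]
      refine Finset.sum_congr rfl fun l _ => ?_
      rw [Finset.sum_comm]
      exact Finset.sum_congr rfl fun m _ => by rw [Finset.sum_mul]
    have e3 : ∑ i, q i * z i ^ 2 = ∑ l, ∑ m, (q l * ∑ i, κ i l * κ i m) * (z l * z m) := by
      refine Finset.sum_congr rfl fun l _ => ?_
      rw [Finset.sum_eq_single l]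
      · rw [hcol, if_pos rfl]; ring
      · intro m _ hm
        rw [hcol, if_neg (Ne.symm hm)]; ring
      · intro hl
        exact absurd (Finset.mem_univ l) hl
    rw [e2, e3, ← Finset.sum_sub_distrib]
    refine Finset.sum_congr rfl fun l _ => ?_
    rw [← Finset.sum_sub_distrib]
    refine Finset.sum_congr rfl fun m _ => ?_
    rw [← sub_mul, Finset.mul_sum, ← Finset.sum_sub_distrib]
    congr 1
    exact Finset.sum_congr rfl fun i _ => by ring
  rw [key]
  have hcs : (∑ l, r l * |z l|) ^ 2 ≤ n * ∑ l, q l * z l ^ 2 := by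
    have := Finset.sum_mul_sq_le_sq_mul_sq (Finset.univ : Finset (Fin n)) (fun _ => (1 : ℝ))
      (fun l => r l * |z l|)
    simp only [one_mul, one_pow, Finset.sum_const, Finset.card_univ, Fintype.card_fin,
      nsmul_eq_mul, mul_one] at this
    refine this.trans (le_of_eq ?_)
    congr 1
    refine Finset.sum_congr rfl fun l _ => ?_
    rw [mul_pow, sq_abs, sq, rq]
  calc |∑ l, ∑ m, (∑ i, κ i l * κ i m * (q i - q l)) * (z l * z m)|
      ≤ ∑ l, ∑ m, 2 * n * η * ((r l * |z l|) * (r m * |z m|)) := by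
        refine (Finset.abs_sum_le_sum_abs _ _).trans (Finset.sum_le_sum fun l _ => ?_)
        refine (Finset.abs_sum_le_sum_abs _ _).trans (Finset.sum_le_sum fun m _ => ?_)
        rw [abs_mul, abs_mul]
        calc _ ≤ 2 * n * η * (r l * r m) * (|z l| * |z m|) :=
              mul_le_mul_of_nonneg_right (hM l m) (mul_nonneg (abs_nonneg _) (abs_nonneg _))
          _ = _ := by ring
    _ = 2 * n * η * (∑ l, r l * |z l|) ^ 2 := by
        rw [sq, Finset.sum_mul_sum, Finset.mul_sum]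
        exact Finset.sum_congr rfl fun l _ => by rw [Finset.mul_sum]
    _ ≤ 2 * n * η * (n * ∑ l, q l * z l ^ 2) := by
        refine mul_le_mul_of_nonneg_left hcs ?_
        positivity
    _ = 2 * n ^ 2 * η * ∑ i, q i * z i ^ 2 := by ring

end Vale.Agent.P092.H944
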