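import Vale.Agent.P092.H155.ReD

/-!
P092, project RANK-ALL (helper944): helper155's `exDg` with the conjugating orthogonal matrix.
-/

set_option linter.all false

open Matrix Filter Topology Module

namespace Vale.Agent.P092.H944.RA

open Vale.Agent.P092.H793.Re Vale.Agent.P092.H155.Re

variable {n : ℕ} {G : Type} [Group G] [TopologicalSpace G]

/-- The diagonal data are those of a conjugate by an orthogonal matrix. -/
theorem exDgK (ρ : G →* SLn n) (hρ : RS ρ) : ∃ (K : Mat n) (hK : Kᵀ * K = 1) (h : Fin n → ℝ),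
    RS (conj K hK ρ) ∧ Dg (conj K hK ρ) h := by
  obtain ⟨V, ⟨hV, hVc⟩, hmax⟩ := exists_max ρ
  obtain ⟨K₀, hK₀, hdiag⟩ := joint_diag V (fun X hX => (hV X hX).2) hVc
  have hK₀' : K₀ * K₀ᵀ = 1 := mul_eq_one_comm.mp hK₀
  -- the diagonal picture of `V`
  let L : (Fin n → ℝ) →ₗ[ℝ] Mat n :=
    { toFun := fun x => K₀ * diagonal x * K₀ᵀ
      map_add' := fun x y => by
        have h1 : diagonal (x + y) = diagonal x + diagonal y := (diagonal_add x y).symm
        rw [h1, Matrix.mul_add, Matrix.add_mul]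
      map_smul' := fun c x => by
        have h1 : diagonal (c • x) = c • diagonal x := diagonal_smul c x
        rw [RingHom.id_apply, h1, Matrix.mul_smul, Matrix.smul_mul] }
  let A : Submodule ℝ (Fin n → ℝ) := V.comap L
  have hA : ∀ x, x ∈ A ↔ K₀ * diagonal x * K₀ᵀ ∈ V := fun x => Iff.rfl
  -- a generic element
  let ι := {q : Fin n × Fin n × Fin n × Fin n // ∃ x ∈ A, x q.1 - x q.2.1 - (x q.2.2.1 - x q.2.2.2) ≠ 0}
  let pr : Fin n → Dual ℝ (Fin n → ℝ) := fun i => LinearMap.proj i
  let f : ι → Dual ℝ (Fin n → ℝ) := fun q =>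
    pr q.1.1 - pr q.1.2.1 - (pr q.1.2.2.1 - pr q.1.2.2.2)
  obtain ⟨h₀, hh₀, hgen⟩ := Module.Dual.exists_forall_mem_ne_zero_of_forall_exists A f fun q => q.2
  have hgen' : ∀ a b c d, h₀ a - h₀ b = h₀ c - h₀ d → ∀ x ∈ A, x a - x b = x c - x d := by
    intro a b c d he x hx
    by_contra hne
    have h1 := hgen ⟨(a, b, c, d), x, hx, sub_ne_zero.mpr hne⟩
    apply h1
    show h₀ a - h₀ b - (h₀ c - h₀ d) = 0
    rw [he, sub_self]
  obtain ⟨σ, hσ⟩ := exists_sort h₀
  set K : Mat n := K₀.submatrix id σ with hKdef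
  have hK : Kᵀ * K = 1 := perm_orth hK₀ σ
  have hK' : K * Kᵀ = 1 := mul_eq_one_comm.mp hK
  have hpd : ∀ x : Fin n → ℝ, K * diagonal (fun a => x (σ a)) * Kᵀ = K₀ * diagonal x * K₀ᵀ :=
    perm_diag K₀ σ
  have hpd' : ∀ x : Fin n → ℝ, K * diagonal x * Kᵀ = K₀ * diagonal (fun a => x (σ.symm a)) * K₀ᵀ := by
    intro x
    rw [← hpd]
    simp
  -- diagonal elements of the Lie algebra
  have hin : ∀ x : Fin n → ℝ, Lie (conj K hK ρ) (diagonal x) → (fun a => x (σ.symm a)) ∈ A := by
    intro x hx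
    rw [hA, ← hpd']
    rw [lie_conj_iff] at hx
    refine hmax _ hx ?_ ?_
    · rw [transpose_mul, transpose_mul, transpose_transpose, diagonal_transpose, Matrix.mul_assoc]
    · intro Y hY
      obtain ⟨y, rfl⟩ := hdiag Y hY
      rw [hpd']
      calc K₀ * diagonal (fun a => x (σ.symm a)) * K₀ᵀ * (K₀ * diagonal y * K₀ᵀ)
          = K₀ * (diagonal (fun a => x (σ.symm a)) * (K₀ᵀ * K₀) * diagonal y) * K₀ᵀ := by
            simp only [Matrix.mul_assoc]
        _ = K₀ * (diagonal y * (K₀ᵀ * K₀) * diagonal (fun a => x (σ.symm a))) * K₀ᵀ := by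
            rw [hK₀, Matrix.mul_one, Matrix.mul_one, diagonal_mul_diagonal, diagonal_mul_diagonal]
            simp only [mul_comm]
        _ = _ := by simp only [Matrix.mul_assoc]
  refine ⟨K, hK, fun a => h₀ (σ a), rs_conj hρ K hK, ?_, hσ, ?_, ?_⟩
  · rw [lie_conj_iff, hpd]
    exact (hV _ hh₀).1
  · intro X hX hs hc
    rw [lie_conj_iff] at hX
    have hmem : K * X * Kᵀ ∈ V := by
      refine hmax _ hX ?_ ?_
      · rw [transpose_mul, transpose_mul, transpose_transpose, hs, Matrix.mul_assoc]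
      · intro Y hY
        obtain ⟨y, rfl⟩ := hdiag Y hY
        have hcy : X * diagonal (fun a => y (σ a)) = diagonal (fun a => y (σ a)) * X := by
          ext a b
          rw [mul_diagonal, diagonal_mul]
          have h1 := congrFun (congrFun hc a) b
          rw [mul_diagonal, diagonal_mul] at h1
          rcases eq_or_ne (X a b) 0 with h0 | h0
          · rw [h0, zero_mul, mul_zero]
          · have h2 : h₀ (σ b) = h₀ (σ a) := by
              have h3 : X a b * (h₀ (σ b) - h₀ (σ a)) = 0 := by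
                rw [mul_sub, h1]; ring
              rcases mul_eq_zero.mp h3 with h4 | h4
              · exact absurd h4 h0
              · linarith
            have h5 := hgen' (σ b) (σ a) (σ a) (σ a) (by rw [h2]) y ((hA y).mpr hY)
            have h6 : y (σ b) = y (σ a) := by linarith
            rw [h6, mul_comm]
        rw [← hpd]
        calc K * X * Kᵀ * (K * diagonal (fun a => y (σ a)) * Kᵀ)
            = K * (X * (Kᵀ * K) * diagonal (fun a => y (σ a))) * Kᵀ := by
              simp only [Matrix.mul_assoc]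
          _ = K * (diagonal (fun a => y (σ a)) * (Kᵀ * K) * X) * Kᵀ := by
              rw [hK, Matrix.mul_one, Matrix.mul_one, hcy]
          _ = _ := by simp only [Matrix.mul_assoc]
    obtain ⟨y, hy⟩ := hdiag _ hmem
    refine ⟨fun a => y (σ a), ?_⟩
    rw [← hpd] at hy
    calc X = (Kᵀ * K) * X * (Kᵀ * K) := by rw [hK, Matrix.one_mul, Matrix.mul_one]
      _ = Kᵀ * (K * X * Kᵀ) * K := by simp only [Matrix.mul_assoc]
      _ = Kᵀ * (K * diagonal (fun a => y (σ a)) * Kᵀ) * K := by rw [hy]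
      _ = (Kᵀ * K) * diagonal (fun a => y (σ a)) * (Kᵀ * K) := by simp only [Matrix.mul_assoc]
      _ = _ := by rw [hK, Matrix.one_mul, Matrix.mul_one]
  · intro a b c d he x hx
    have h1 := hgen' (σ a) (σ b) (σ c) (σ d) he _ (hin x hx)
    simpa using h1

end Vale.Agent.P092.H944.RA
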